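import Vale.Agent.P011N.Cl.D4.Zq

/-!
The quaternion algebra over the cubic extension, and the modifications of the normal form.
-/

namespace Vale.Agent.P011N.Cl

open Vale.Agent.P011.MPQ Vale.Agent.P011.D4 Vale.Agent.P011.D4.Oct Equiv Module

variable {F : Type} [Field F] [NumberField F] {a b c c' : Fˣ} {Γ : Subgroup (Gl F)}
  {Φ : Subgroup (Perm (V4 a b c))} {p : Gl F → Perm (Fin 3)} {d : F} {q : Fin 3 → F}

open Classical in
/-- The quaternions of the standard map over an automorphism. -/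
noncomputable def ew (d : F) (q : Fin 3 → F) (γ : Gl F) : Fin 3 → Qt a b :=
  if γ d = d then 1 else fun i => eq d (q i)

theorem ew_pos {γ : Gl F} (h : γ d = d) : (ew d q γ : Fin 3 → Qt a b) = 1 := if_pos h

theorem ew_neg {γ : Gl F} (h0 : d ≠ 0) (h : γ d = -d) :
    (ew d q γ : Fin 3 → Qt a b) = fun i => eq d (q i) := if_neg (by rw [h]; exact ne_neg h0)

theorem NF.rep (h : NF Γ Φ p d q) {γ : Gl F} (hγ : γ ∈ Γ) :
    ∃ φ ∈ Φ, Semi γ φ ∧ ∀ x, φ x = zq (ew d q γ) (st4 γ (p γ) x) := by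
  have h1 : ∃ φ ∈ Φ, ∀ x, φ x = zq (ew d q γ) (st4 γ (p γ) x) := by
    rcases h.sgn hγ with h1 | h1
    · exact ⟨_, h.st γ hγ h1, fun x => by rw [ew_pos h1, zq_one, stP_apply]⟩
    · obtain ⟨φ, h2, h3⟩ := h.tw γ hγ h1
      exact ⟨φ, h2, fun x => by rw [h3, ew_neg (ne_of_sq h.sq) h1, mp_eq_zq h.sq h.prod]⟩
  obtain ⟨φ, h2, h3⟩ := h1
  exact ⟨φ, h2, by rw [funext h3]; exact Semi.lin_comp semi_zq semi_st4, h3⟩

theorem NF.exists_sc (h : NF Γ Φ p d q) {φ : Perm (V4 a b c)} (hφ : φ ∈ Φ) {γ : Gl F}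
    (hγ : Semi γ φ) : ∃ l, ∀ x, φ x = sc l (zq (ew d q γ) (st4 γ (p γ) x)) := by
  obtain ⟨φ', h1, h2, h3⟩ := h.rep (h.dat.ov.mem hφ hγ)
  obtain ⟨z, hz, rfl⟩ := h.dat.exists_Z4 h1 hφ h2 hγ
  obtain ⟨l, hl⟩ := mem_Z4.1 hz
  exact ⟨l, fun x => by rw [Perm.mul_apply, h3]; exact funext (hl _)⟩

/-- The families of quaternions which are fixed by the twisted action. -/
def Q1 (Γ : Subgroup (Gl F)) (p : Gl F → Perm (Fin 3)) (d : F) (q : Fin 3 → F)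
    (X : Fin 3 → Qt a b) : Prop :=
  ∀ γ ∈ Γ, ∀ i, ew d q γ (p γ i) * jQ γ (X i) = X (p γ i) * ew d q γ (p γ i)

/-- The equivariant families of elements of the field. -/
def Eqv (Γ : Subgroup (Gl F)) (p : Gl F → Perm (Fin 3)) (t : Fin 3 → F) : Prop :=
  ∀ γ ∈ Γ, ∀ i, γ (t i) = t (p γ i)

theorem Eqv.fx_prod {t : Fin 3 → F} (h : Eqv Γ p t) : Fx Γ (t 0 * t 1 * t 2) := fun γ hγ => by
  rw [← Fin.prod_univ_three, map_prod]
  exact Fintype.prod_equiv (p γ) _ _ (h γ hγ)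

theorem Eqv.fx_sum {t : Fin 3 → F} (h : Eqv Γ p t) : Fx Γ (t 0 + t 1 + t 2) := fun γ hγ => by
  rw [← Fin.sum_univ_three, map_sum]
  exact Fintype.sum_equiv (p γ) _ _ (h γ hγ)

theorem NF.zq_rep (h : NF Γ Φ p d q) {γ : Gl F} (hγ : γ ∈ Γ) {X Y : Fin 3 → Qt a b}
    (hX : ∀ i, ew d q γ (p γ i) * jQ γ (X i) = Y (p γ i) * ew d q γ (p γ i)) (x : V4 a b c') :
    (zq (ew d q γ) (st4 γ (p γ) (zq X x : V4 a b c)) : V4 a b c) =
      zq Y (zq (ew d q γ) (st4 γ (p γ) x) : V4 a b c') := by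
  rw [st4_zq (B' := fun j => jQ γ (X ((p γ)⁻¹ j))) (h.fa γ hγ) (h.fb γ hγ)
    (fun i => by rw [show (p γ)⁻¹ (p γ i) = i from (p γ).symm_apply_apply i]), zq_zq, zq_zq]
  congr 1
  funext j
  obtain ⟨i, rfl⟩ := (p γ).surjective j
  rw [Pi.mul_apply, Pi.mul_apply, show (p γ)⁻¹ (p γ i) = i from (p γ).symm_apply_apply i, hX]

theorem NF.nrd_ew (h : NF Γ Φ p d q) (γ : Gl F) (i : Fin 3) :
    nrd (ew d q γ i : Qt a b) ≠ 0 := by
  rw [ew]
  split_ifs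
  · rw [Pi.one_apply, nrd_one]
    exact one_ne_zero
  · rw [nrd_eq h.sq]
    exact ne_of_prod h.prod i

/-- Change of the third parameter by a norm. -/
theorem NF.zq (h : NF Γ Φ p d q) {X : Fin 3 → Qt a b} (hX : Q1 Γ p d q X)
    (hc : (c' : F) = c * (nrd (X 0) * nrd (X 1) * nrd (X 2))) :
    ∃ ψ : V4 a b c' ≃ V4 a b c, (∃ μ ν, Sim4 id 1 μ ν ψ) ∧ NF Γ (tr ψ Φ) p d q := by
  obtain ⟨ψ, ⟨μ, ν, s1⟩, hψ⟩ := exists_zq hc
  have h1 : Eqv Γ p fun i => nrd (X i) := fun γ hγ i => by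
    have h2 := congrArg nrd (hX γ hγ i)
    rw [nrd_mul, nrd_mul, mul_comm, nrd_jQ (h.fa γ hγ) (h.fb γ hγ)] at h2
    exact mul_right_cancel₀ (h.nrd_ew γ _) h2
  have h2 : ∀ γ ∈ Γ, ∃ φ ∈ tr ψ Φ, ∀ x, φ x = Cl.zq (ew d q γ) (st4 γ (p γ) x) := by
    intro γ hγ
    obtain ⟨φ, k1, -, k2⟩ := h.rep hγ
    refine ⟨_, symm_mem_tr.2 k1, fun x => ?_⟩
    rw [permCongr_apply, symm_symm, symm_apply_eq, k2, hψ, hψ, h.zq_rep hγ (hX γ hγ)]
  refine ⟨ψ, ⟨μ, ν, s1⟩, h.dat.tr s1, h.pm.tr s1, h.fa, h.fb, hc ▸ h.fc.mul h1.fx_prod, h.sq,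
    h.prod, h.eqv, fun γ hγ h3 => ?_, fun γ hγ h3 => ?_⟩
  · obtain ⟨φ, k1, k2⟩ := h2 γ hγ
    rwa [show stP γ (p γ) = φ from Equiv.ext fun x => by rw [k2, ew_pos h3, zq_one, stP_apply]]
  · obtain ⟨φ, k1, k2⟩ := h2 γ hγ
    exact ⟨φ, k1, fun x => by rw [k2, ew_neg (ne_of_sq h.sq) h3, mp_eq_zq h.sq h.prod]⟩

/-- The embedding of the quaternion algebra `(a, t b)`. -/
def qx (d t : F) {a' b' : Fˣ} (w : Qt a' b') : Qt a b :=
  ⟨w.re, w.imI, w.imJ * ((t + 1) / 2) + a * w.imK * ((t - 1) / (2 * d)),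
    w.imJ * ((t - 1) / (2 * d)) + w.imK * ((t + 1) / 2)⟩

theorem nrd_qx (h : d ^ 2 = a) {t : F} {b' : Fˣ} (hb : (b' : F) = t * b) (w : Qt a b') :
    nrd (qx d t w : Qt a b) = nrd w := by
  have h0 := ne_of_sq h
  simp only [nrd, qx, hb, ← h]
  field_simp
  ring

theorem exists_eqv (hp : Pm Γ Φ p) (htr : ∀ j, ∃ γ ∈ Γ, p γ 0 = j) {t : F}
    (ht : ∀ γ ∈ Γ, p γ 0 = 0 → γ t = t) : ∃ s, Eqv Γ p s ∧ s 0 = t := by
  choose δ h1 h2 using htr
  have h3 : ∀ γ ∈ Γ, δ (p γ 0) t = γ t := fun γ hγ => by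
    have h4 := ht _ (Γ.mul_mem (Γ.inv_mem hγ) (h1 (p γ 0))) (by
      rw [hp.mul _ (Γ.inv_mem hγ) _ (h1 _), hp.inv hγ, Perm.mul_apply, h2]
      exact (p γ).symm_apply_apply 0)
    conv_rhs => rw [← h4]
    exact (γ.apply_symm_apply _).symm
  refine ⟨fun j => δ j t, fun γ hγ i => ?_, ht _ (h1 0) (h2 0)⟩
  have h4 := h3 _ (Γ.mul_mem hγ (h1 i))
  rw [hp.mul _ hγ _ (h1 i), Perm.mul_apply, h2] at h4
  exact h4.symm

theorem NF.exists_Q1 (h : NF Γ Φ p d q) (htr : ∀ j, ∃ γ ∈ Γ, p γ 0 = j) {b' : Fˣ}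
    (hb : (b' : F) = q 0 * b) {w : Qt a b'} (hw : ∀ γ ∈ Γ, p γ 0 = 0 → jQ γ w = w) :
    ∃ X : Fin 3 → Qt a b, Q1 Γ p d q X ∧ (X 0).re = w.re ∧ nrd (X 0) = nrd w ∧
      Eqv Γ p (fun i => (X i).re) ∧ Eqv Γ p fun i => nrd (X i) := by
  obtain ⟨s0, e0, f0⟩ := exists_eqv h.pm htr fun γ h1 h2 => congrArg (·.re) (hw γ h1 h2)
  obtain ⟨s1, e1, f1⟩ := exists_eqv h.pm htr fun γ h1 h2 => congrArg (·.imI) (hw γ h1 h2)
  obtain ⟨s2, e2, f2⟩ := exists_eqv h.pm htr fun γ h1 h2 => congrArg (·.imJ) (hw γ h1 h2)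
  obtain ⟨s3, e3, f3⟩ := exists_eqv h.pm htr fun γ h1 h2 => congrArg (·.imK) (hw γ h1 h2)
  have h0 := ne_of_sq h.sq
  have h1 : Q1 Γ p d q fun i => (qx d (q i) (⟨s0 i, s1 i, s2 i, s3 i⟩ : Qt a b') : Qt a b) := by
    intro γ hγ i
    rcases h.sgn hγ with h2 | h2
    · rw [ew_pos h2, Pi.one_apply, one_mul, mul_one]
      ext <;> simp [jQ, qx, e0 γ hγ, e1 γ hγ, e2 γ hγ, e3 γ hγ, h.eqv γ hγ, h.fa γ hγ, h2,
        map_ofNat]
    · rw [ew_neg h0 h2]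
      ext <;> simp [jQ, qx, eq, e0 γ hγ, e1 γ hγ, e2 γ hγ, e3 γ hγ, h.eqv γ hγ, h2, ← h.sq,
        map_ofNat] <;> field_simp <;> ring
  refine ⟨_, h1, f0, by rw [nrd_qx h.sq hb, f0, f1, f2, f3], e0, fun γ hγ i => ?_⟩
  have h2 := congrArg nrd (h1 γ hγ i)
  rw [nrd_mul, nrd_mul, mul_comm, nrd_jQ (h.fa γ hγ) (h.fb γ hγ)] at h2
  exact mul_right_cancel₀ (h.nrd_ew γ _) h2

/-- Left multiplication on the complement of the quaternion algebra. -/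
def uq (X : Qt a b) (x : V4 a b c) : V4 a b c := fun i => ⟨(x i).fst, X * (x i).snd⟩

theorem NF.not_ani {Φ : Subgroup (Perm (V4 a 1 c))} (h : NF Γ Φ p d q) :
    ¬ Ani (Pts (S4 a 1 c) Φ) := by
  intro hA
  let n : Qt a 1 := ⟨0, 1, 0, 1⟩
  have h1 : n * n = 0 := by ext <;> simp [n]
  have h2 : nrd (1 + n) = 1 := by simp [n, nrd]
  have h3 : ∀ (X Y : Qt a 1) (x : V4 a 1 c), uq X (uq Y x) = uq (X * Y) x := fun X Y x =>
    funext fun i => by simp only [uq, mul_assoc]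
  have h4 : ∀ x : V4 a 1 c, uq 1 x = x := fun x => funext fun i => by simp only [uq, one_mul]
  let g : Perm (V4 a 1 c) := ⟨uq (1 + n), uq (1 - n),
    fun x => by rw [h3, sub_mul, mul_add, one_mul, mul_add, h1, mul_one, one_mul, add_zero,
      add_sub_cancel_right, h4],
    fun x => by rw [h3, add_mul, one_mul, mul_sub, h1, mul_one, sub_zero, sub_add_cancel, h4]⟩
  have h5 : ∀ x, g x = uq (1 + n) x := fun _ => rfl
  have s1 : Sim4 id 1 1 1 g := by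
    refine (sim4_one.2 (sim4_of_be (μ := 1) (t := 1) (fun t x y => funext fun i => ?_)
      (fun x i => ?_) (fun _ => one_ne_zero) (fun x => ?_) one_ne_zero)).cast rfl rfl
      (fun _ => rfl) (one_mul _)
    · ext1
      · rfl
      · simp only [h5, uq, Pi.add_apply, Pi.smul_apply, snd_add, snd_smul, mul_add,
          mul_smul_comm, id]
    · simp only [h5, uq, Oct.norm, nrd_mul, h2, one_mul, Pi.one_apply]
    · rw [one_smul]
      ext1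
      · simp only [h5, uq, be_fst, star_mul, mul_assoc, q_star_mul_mul, h2, one_smul]
      · simp only [h5, uq, be_snd, mul_assoc, mul_neg, mul_add]
  have h6 := hA g ⟨mem_S4.2 s1, fun φ hφ => ?_⟩ ⟨2, fun x => funext fun i => ?_⟩
  · have h7 := congrArg (fun u : Oct a 1 c => u.snd.imI)
      (congrFun (DFunLike.congr_fun h6 fun _ => gl) 0)
    simp [h5, uq, gl, n] at h7
  · obtain ⟨γ, hγ, k1⟩ := h.dat.ov.semi φ hφ
    obtain ⟨l, hl⟩ := h.exists_sc hφ k1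
    have k2 : jQ γ (1 + n) = 1 + n := by ext <;> simp [jQ, n]
    ext1 x
    rw [Perm.mul_apply, Perm.mul_apply, hl, hl, h5, h5]
    funext j
    have k3 : st4 γ (p γ) (uq (1 + n) x) = uq (1 + n) (st4 γ (p γ) x) := funext fun j => by
      simp only [st4, uq]
      split_ifs <;> ext1 <;>
        simp only [jO, jQ_mul (h.fa γ hγ) (h.fb γ hγ), k2, fst_star, snd_star, mul_neg]
    rw [k3]
    ext1
    · rfl
    · simp only [sc, uq, Cl.zq, snd_smul, mul_smul_comm, mul_assoc]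
  · ext1
    · simp [h5, uq]
    · simp [h5, uq, add_mul, ← mul_assoc, h1]

theorem zq_rank {B : Fin 3 → Qt a b} (hB : ∀ i, nrd (B i) = 0) {x : V4 a b c}
    (hx : ∀ i, (zq B x : V4 a b c) i ≠ 0) (y : V4 a b c) : Ln (zq B y : V4 a b c) (zq B x) := by
  intro i
  have h1 : ∀ y : V4 a b c, ((zq B y : V4 a b c) i).snd = 0 := fun y => by
    simp only [zq, hB, zero_mul, zero_smul]
  obtain ⟨t, ht⟩ := q_rank (x := ((zq B x : V4 a b c) i).fst) (y := ((zq B y : V4 a b c) i).fst)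
    (fun h0 => hx i (Oct.ext h0 (h1 x)))
    (by simp only [zq, star_mul, mul_assoc, q_star_mul_mul, hB, zero_smul, mul_zero])
    (by simp only [zq, star_mul, star_star, mul_assoc, q_star_mul_mul, hB, zero_smul, mul_zero])
  exact ⟨t, Oct.ext ht (by rw [snd_smul, h1, h1, smul_zero])⟩

/-- A new quadratic extension which embeds in the quaternion algebra over the cubic extension. -/
theorem NF.hex (h : NF Γ Φ p d q) {I : Fin 3 → Qt a b} (hI : Q1 Γ p d q I)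
    (h1 : ∀ i, (I i).re = 0) {e : F} (he0 : e ≠ 0) (h2 : ∀ i, nrd (I i) = -e ^ 2)
    (he : ∀ γ ∈ Γ, γ e = e ∨ γ e = -e) (htr : ∀ i j, ∃ γ ∈ Γ, γ e = e ∧ p γ i = j)
    {σ : Gl F} (hσ : σ ∈ Γ) (hσe : σ e = -e) :
    ∃ (a' b' c' : Fˣ) (ψ : V4 a' b' c' ≃ V4 a b c) (q' : Fin 3 → F), (∃ μ ν, Sim4 id 1 μ ν ψ) ∧
      NF Γ (tr ψ Φ) p e q' := by
  let B : F → Fin 3 → Qt a b := fun s i => s • 1 + I i
  have k1 : ∀ s i, star (B s i) = -B (-s) i := fun s i => by ext <;> simp [B, h1]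
  have k2 : ∀ s, s ^ 2 = e ^ 2 → ∀ i, nrd (B s i) = 0 := fun s hs i => by
    have k3 := h2 i
    simp only [nrd, h1] at k3
    simp [nrd, B, h1]
    linear_combination k3 + hs
  have k3 : ∀ i, B e i * B e i = (2 * e) • B e i := fun i => by
    have k4 := q_eq (B e i)
    rw [show (B e i).re = e by simp [B, h1]] at k4
    nth_rewrite 1 [k4]
    rw [sub_mul, q_star_mul, k2 e rfl, zero_smul, sub_zero, smul_mul_assoc, one_mul]
  have k4 : ∀ γ ∈ Γ, ∀ x : V4 a b c, (Cl.zq (ew d q γ) (st4 γ (p γ) (Cl.zq (B e) x : V4 a b c)) :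
      V4 a b c) = Cl.zq (B (γ e)) (Cl.zq (ew d q γ) (st4 γ (p γ) x) : V4 a b c) :=
    fun γ hγ => h.zq_rep hγ fun i => by
      have k5 : (jQ γ (1 : Qt a b) : Qt a b) = 1 := by ext <;> simp [jQ]
      simp only [B, jQ_add, jQ_smul, k5, mul_add, add_mul, hI γ hγ i, mul_smul_comm,
        smul_mul_assoc, mul_one, one_mul]
  have k5 : ∀ i, ∃ w, B e (i + 1) * w * star (B e (i + 2)) ≠ 0 := fun i =>
    q_prime (by simpa [B, h1] using he0) fun h0 => he0 (by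
      simpa [B, h1] using congrArg (·.re) h0)
  choose w hw using k5
  let y : V4 a b c := fun i => ⟨w i, 0⟩
  have k6 : ∀ i, (Cl.zq (B e) y : V4 a b c) i ≠ 0 := fun i h0 => hw i (congrArg Oct.fst h0)
  obtain ⟨τ, t1, t2, t3⟩ := h.rep hσ
  obtain ⟨_, _, s1⟩ := h.pm.sim τ t1 σ t2
  refine hexagon h.dat h.pm he0 he htr k6 (funext fun i => ?_) (fun φ hφ γ hγ h3 => ?_) t1 t2 hσe
    (i₀ := 0) fun h0 => hw 0 (q_eq_zero fun v => ?_)
  · obtain ⟨m1, m2, m3, m4⟩ := fin3_add i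
    ext1
    · simp only [be_fst, Cl.zq, m1, m2, m3, m4, star_mul, star_star, mul_assoc, q_star_mul_mul,
        k2 e rfl, zero_smul, mul_zero, Pi.zero_apply, fst_zero, smul_zero, add_zero]
    · simp only [be_snd, Cl.zq, k2 e rfl, zero_smul, mul_zero, zero_mul, Pi.zero_apply, snd_zero,
        add_zero, neg_zero]
  · obtain ⟨l, hl⟩ := h.exists_sc hφ hγ
    rw [hl, k4 γ (h.dat.ov.mem hφ hγ), h3]
    exact (ln_sc _ _).trans (zq_rank (k2 e rfl) k6 _)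
  · have m1 := s1.ne_all k6
    rw [t3, k4 σ hσ, hσe] at m1 h0
    obtain ⟨t, ht⟩ := zq_rank (k2 (-e) (neg_sq e)) m1 (fun _ => ⟨star v, 0⟩) 0
    have m2 := congrArg (bil ((Cl.zq (B e) y : V4 a b c) 0)) ht
    rw [bil_smul_right, h0, mul_zero, bil_eq_dot, dot, fst_mul, fst_star, snd_star] at m2
    have m3 : ∀ i, B (-e) i = -star (B e i) := fun i => by rw [k1, neg_neg]
    simp only [Cl.zq, y, k2 e rfl, zero_mul, mul_zero, smul_zero, add_zero, m3,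
      star_neg, star_star, star_mul, mul_neg, neg_mul, neg_neg] at m2
    have m4 : ∀ i z, B e i * (B e i * z) = (2 * e) • (B e i * z) := fun i z => by
      rw [← mul_assoc, k3, smul_mul_assoc]
    have m5 : ∀ i z, star (B e i) * (star (B e i) * z) = (2 * e) • (star (B e i) * z) :=
      fun i z => by rw [← mul_assoc, ← star_mul, k3, q_star_smul, smul_mul_assoc]
    rw [← mul_assoc _ v, ← mul_assoc _ (_ * v), q_re_comm] at m2
    simp only [mul_assoc, m4, m5, mul_smul_comm, QuaternionAlgebra.re_smul, smul_eq_mul,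
      mul_eq_zero, he0, OfNat.ofNat_ne_zero, false_or] at m2
    simpa only [mul_assoc] using m2

end Vale.Agent.P011N.Cl
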