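import Vale.Agent.P011N.Cl.D4.Mod
import Vale.Agent.P011N.Cl.D4.Q1
import Vale.Agent.P011.RP.Dense

/-!
The signs of the parameters of the normal form at the real places.
-/

namespace Vale.Agent.P011N.Cl

open Vale.Agent.P011.MPQ Vale.Agent.P011.D4 Vale.Agent.P011.D4.Oct Equiv Module Filter Topology

section real

variable {k F : Type} [Field k] [NumberField k] [Field F] [NumberField F] {Γ : Subgroup (Gl F)}

theorem exists_open2 (U : (k →+* ℝ) → Set (ℝ × ℝ)) (hU : ∀ τ, IsOpen (U τ))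
    (hne : ∀ τ, (U τ).Nonempty) : ∃ s t : k, ∀ τ : k →+* ℝ, (τ s, τ t) ∈ U τ := by
  choose r hr using hne
  choose ε hε hb using fun τ => Metric.isOpen_iff.1 (hU τ) (r τ) (hr τ)
  obtain ⟨δ, hδ, hδε⟩ : ∃ δ : ℝ, 0 < δ ∧ ∀ τ : k →+* ℝ, δ ≤ ε τ := by
    rcases isEmpty_or_nonempty (k →+* ℝ) with h | h
    · exact ⟨1, one_pos, fun τ => (h.false τ).elim⟩
    · obtain ⟨τ₀, h0⟩ := Finite.exists_min ε
      exact ⟨ε τ₀, hε τ₀, h0⟩
  obtain ⟨s, hs⟩ := Vale.Agent.P011.RP.real_dense (fun τ => (r τ).1) hδ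
  obtain ⟨t, ht⟩ := Vale.Agent.P011.RP.real_dense (fun τ => (r τ).2) hδ
  exact ⟨s, t, fun τ => hb τ (max_lt ((hs τ).trans_le (hδε τ)) ((ht τ).trans_le (hδε τ)))⟩

omit [NumberField k] in
theorem exists_place {κ : k →+* F} (hκ : ∀ x, Fx Γ (κ x)) {w : F →+* ℂ} (hw : RlG Γ w) :
    ∃ P : k →+* ℝ, ∀ x, w (κ x) = P x := by
  have h : NumberField.ComplexEmbedding.IsReal (w.comp κ) :=
    NumberField.ComplexEmbedding.isReal_iff.2 (RingHom.ext fun x =>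
      Complex.conj_eq_iff_im.2 (hw _ (hκ x)))
  exact ⟨h.embedding, fun x => (h.coe_embedding_apply x).symm⟩

theorem exists_ext (ι : k →+* F) (v : k →+* ℂ) : ∃ w : F →+* ℂ, ∀ x, w (ι x) = v x := by
  letI := ι.toAlgebra
  letI := v.toAlgebra
  haveI : Algebra.IsAlgebraic k F := Algebra.IsAlgebraic.tower_top (K := ℚ) k
  let w : F →ₐ[k] ℂ := IsAlgClosed.lift
  exact ⟨w, fun x => w.commutes x⟩

theorem finrank_fixed {ι : k →+* F} (h : ∀ x, x ∈ Set.range ι ↔ Fx Γ x) :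
    finrank ℚ k * Nat.card Γ = finrank ℚ F := by
  have h1 : ι.toRatAlgHom.fieldRange = IntermediateField.fixedField Γ :=
    IntermediateField.ext fun x => (h x).trans fx_iff
  rw [(AlgEquiv.ofInjectiveField ι.toRatAlgHom).toLinearEquiv.finrank_eq,
    ← IntermediateField.finrank_fixedField_eq_card, ← h1]
  exact Module.finrank_mul_finrank ℚ ι.toRatAlgHom.fieldRange F

theorem exists_neg_cubic {e₁ e₂ x : ℝ} (hx : x < 0) (h1 : 1 - e₂ * x + e₁ * x ^ 2 - x ^ 3 = 0)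
    (h2 : -e₂ + 2 * e₁ * x - 3 * x ^ 2 ≠ 0) :
    ∃ s, s < 0 ∧ 1 - e₂ * s + e₁ * s ^ 2 - s ^ 3 < 0 := by
  set D := -e₂ + 2 * e₁ * x - 3 * x ^ 2 with hD
  have h3 : ∀ᶠ δ in 𝓝 (0 : ℝ), x - δ * D < 0 ∧ 0 < 1 - δ * (e₁ - 3 * x) - δ ^ 2 * D :=
    (ContinuousAt.eventually_lt (by fun_prop) continuousAt_const (by simpa using hx)).and
      (ContinuousAt.eventually_lt continuousAt_const (by fun_prop) (by simp))
  obtain ⟨δ, ⟨h4, h5⟩, h6⟩ := ((h3.filter_mono (nhdsWithin_le_nhds (s := Set.Ioi 0))).and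
    self_mem_nhdsWithin).exists
  refine ⟨_, h4, ?_⟩
  have h7 : 1 - e₂ * (x - δ * D) + e₁ * (x - δ * D) ^ 2 - (x - δ * D) ^ 3 =
      -(δ * D ^ 2 * (1 - δ * (e₁ - 3 * x) - δ ^ 2 * D)) := by
    rw [hD]
    linear_combination h1
  rw [h7, neg_lt_zero]
  exact mul_pos (mul_pos h6 (sq_pos_of_ne_zero h2)) h5

theorem exists_pos_cubic (e₁ e₂ : ℝ) : ∃ s, s < 0 ∧ 0 < 1 - e₂ * s + e₁ * s ^ 2 - s ^ 3 := by
  have h3 : ∀ᶠ s in 𝓝 (0 : ℝ), 0 < 1 - e₂ * s + e₁ * s ^ 2 - s ^ 3 :=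
    ContinuousAt.eventually_lt continuousAt_const (by fun_prop) (by simp)
  obtain ⟨s, h4, h5⟩ := ((h3.filter_mono (nhdsWithin_le_nhds (s := Set.Iio 0))).and
    self_mem_nhdsWithin).exists
  exact ⟨s, h5, h4⟩

end real

variable {k F : Type} [Field k] [NumberField k] [Field F] [NumberField F] {a b c : Fˣ}
  {Γ : Subgroup (Gl F)} {Φ : Subgroup (Perm (V4 a b c))} {p : Gl F → Perm (Fin 3)} {d : F}
  {q : Fin 3 → F} {κ : k →+* F}

/-- The real conjugates of `q` over the place are positive. -/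
def PosP (κ : k →+* F) (q : Fin 3 → F) (P : k →+* ℝ) : Prop :=
  ∀ w : F →+* ℂ, (∀ x, w (κ x) = P x) → ∀ i, (w (q i)).im = 0 → 0 < (w (q i)).re

theorem NFT.simp_def (h3 : ClD3 Simp) (h6 : ClD6 Simp) (h : NFT Γ Φ p d q)
    (hdef : ∀ w, RlG Γ w → (w a).re < 0 → (w b).re < 0 ∧ (w c).re < 0)
    (hpos : ∃ w, RlG Γ w ∧ (w a).re < 0 ∧ ∀ i, (w (q i)).im = 0 → 0 < (w (q i)).re) :
    Simp (Pts (S4 a b c) Φ) := by
  obtain ⟨E, _, _, ι, Γ₁, a₁, b₁, c₁, Φ₁, p₁, d₁, q₁, hE, hP, hq, h₁, hU, hf⟩ := h.descend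
  refine hU.symm.simp (h₁.simp_faithful h3 h6 hf (fun v hv => ?_) ?_)
  · obtain ⟨w, hw⟩ := exists_ext ι v
    rw [← hw, ← hw, ← hw, hP.1, hP.2.1, hP.2.2]
    refine hdef w fun x hx => ?_
    obtain ⟨y, k1, rfl⟩ := hE.of_fx hx
    rw [hw, hv y k1]
  · obtain ⟨w, w1, w2, w3⟩ := hpos
    refine ⟨w.comp ι, fun x hx => w1 _ (hE.fx hx), by rwa [RingHom.comp_apply, hP.1], fun i => ?_⟩
    rw [RingHom.comp_apply, hq]
    exact w3 i

theorem NFT.exists_b (h : NFT Γ Φ p d q) (hκ : ∀ x, x ∈ Set.range κ ↔ Fx Γ x) {a₀ : k}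
    (ha : κ a₀ = a) :
    ∃ (b' c' : Fˣ) (Φ' : Subgroup (Perm (V4 a b' c'))) (b₀ c₀ : k), NFT Γ Φ' p d q ∧
      UIso (Pts (S4 a b' c') Φ') (Pts (S4 a b c) Φ) ∧ κ b₀ = b' ∧ κ c₀ = c' ∧
      ∀ P : k →+* ℝ, P a₀ < 0 → (0 < P b₀ → PosP κ q P) ∧ (P b₀ < 0 → PosP κ q P → P c₀ < 0) := by
  classical
  obtain ⟨b₀, hb⟩ := exists_unit ((hκ _).2 h.fb)
  obtain ⟨c₀, hc⟩ := exists_unit ((hκ _).2 h.fc)
  rcases isEmpty_or_nonempty (k →+* ℝ) with h0 | ⟨⟨P₀⟩⟩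
  · exact ⟨b, c, Φ, b₀, c₀, h, UIso.refl _, hb, hc, fun P => (h0.false P).elim⟩
  obtain ⟨s, t, hs⟩ := exists_open2 (fun P : k →+* ℝ =>
    if PosP κ q P ∧ ¬ (P b₀ < 0 ∧ P c₀ < 0)
    then {v | 0 < P b₀ + P c₀ * v.1 ^ 2 - P b₀ * P c₀ * v.2 ^ 2}
    else {v | P b₀ + P c₀ * v.1 ^ 2 - P b₀ * P c₀ * v.2 ^ 2 < 0})
    (fun P => by split_ifs <;> exact isOpen_lt (by fun_prop) (by fun_prop)) fun P => by
      have k1 := (map_ne_zero P).2 b₀.ne_zero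
      have k2 := (map_ne_zero P).2 c₀.ne_zero
      generalize P b₀ = B at *
      generalize P c₀ = C at *
      split_ifs with k3
      · rcases k1.lt_or_gt with k4 | k4
        · have k5 : 0 < C := lt_of_le_of_ne (not_lt.1 fun k5 => k3.2 ⟨k4, k5⟩) k2.symm
          refine ⟨(1 - B / C, 0), ?_⟩
          have k6 : B + C * (1 - B / C) ^ 2 - B * C * 0 ^ 2 = C - B + B ^ 2 / C := by
            field_simp
            ring
          rw [Set.mem_ofPred_eq, k6]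
          have := div_nonneg (sq_nonneg B) k5.le
          linarith
        · exact ⟨0, by simpa using k4⟩
      · rcases k1.lt_or_gt with k4 | k4
        · exact ⟨0, by simpa using k4⟩
        · rcases k2.lt_or_gt with k5 | k5
          · refine ⟨(1 - B / C, 0), ?_⟩
            have k6 : B + C * (1 - B / C) ^ 2 - B * C * 0 ^ 2 = C - B + B ^ 2 / C := by
              field_simp
              ring
            rw [Set.mem_ofPred_eq, k6]
            have := div_nonpos_of_nonneg_of_nonpos (sq_nonneg B) k5.le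
            linarith
          · refine ⟨(0, 1 + 1 / C), ?_⟩
            have k6 : B + C * 0 ^ 2 - B * C * (1 + 1 / C) ^ 2 = -(B * (C + 1 + 1 / C)) := by
              field_simp
              ring
            rw [Set.mem_ofPred_eq, k6, neg_lt_zero]
            positivity
  have h1 : ∀ P : k →+* ℝ, P (b₀ + c₀ * s ^ 2 - b₀ * c₀ * t ^ 2) =
      P b₀ + P c₀ * P s ^ 2 - P b₀ * P c₀ * P t ^ 2 := fun P => by simp
  have h2 : κ (b₀ + c₀ * s ^ 2 - b₀ * c₀ * t ^ 2) ≠ 0 := (map_ne_zero κ).2 fun h0 => by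
    have k1 := hs P₀
    have k2 := h1 P₀
    rw [h0, map_zero] at k2
    split_ifs at k1 <;> rw [Set.mem_ofPred_eq, ← k2] at k1 <;> exact lt_irrefl _ k1
  have h3 : ∀ x, Fx Γ (κ x) := fun x => (hκ _).1 ⟨x, rfl⟩
  have h4 : Fix Γ (fun γ => jO γ) (⟨⟨0, 0, 1, 0⟩, ⟨κ s, 0, κ t, 0⟩⟩ : Oct a b c) := fun γ hγ => by
    apply ext8 <;> simp [jO, jQ, h3 _ γ hγ]
  obtain ⟨c', l, k1, k2, k3⟩ := (oact_jO h.fa h.fb h.fc).exists_third (i := gi) (α := a)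
    (β := Units.mk0 _ h2) (fun γ _ => by apply ext8 <;> simp [jO, jQ, gi]) h4
    ⟨by simp [bil_eq, gi], by simp [bil_eq], by simp [bil_eq, gi], by simp [Oct.norm, nrd, gi],
      by simp [Oct.norm, nrd, hb, hc]; ring⟩
  obtain ⟨ψ, s1, k4⟩ := h.frame h4 k2 (h3 _) k1 k3
  obtain ⟨c₁, hc₁⟩ := (hκ _).2 k1
  refine ⟨_, c', _, _, c₁, ⟨k4, h.trn, h.sig⟩, uiso_tr4 s1 _, rfl, hc₁, fun P k5 =>
    ⟨fun k6 => ?_, fun k6 k7 => ?_⟩⟩ <;> have k8 := hs P <;> rw [h1] at k6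
  · split_ifs at k8 with k9
    exacts [k9.1, absurd k8 (not_lt.2 k6.le)]
  · split_ifs at k8 with k9
    · exact absurd k8 (not_lt.2 k6.le)
    · obtain ⟨k10, k11⟩ := not_not.1 fun k10 => k9 ⟨k7, k10⟩
      obtain ⟨w, w1, w2⟩ := exists_rlG (fun x => (hκ x).2) P
      have k12 := norm_pos h.fa h.fb h.fc w1 (by rwa [← ha, w2]) (by rwa [← hb, w2])
        (by rwa [← hc, w2]) k2 fun h0 => c'.ne_zero (by
          rw [← neg_eq_zero, ← k3.norm_l, h0, Oct.norm_zero])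
      rwa [k3.norm_l, ← hc₁, map_neg, w2, Complex.neg_re, Complex.ofReal_re, neg_pos] at k12

theorem Eqv.ext {s t : Fin 3 → F} (hs : Eqv Γ p s) (ht : Eqv Γ p t)
    (htr : ∀ i j, ∃ γ ∈ Γ, p γ i = j) (h : s 0 = t 0) (i : Fin 3) : s i = t i := by
  obtain ⟨γ, h1, rfl⟩ := htr 0 i
  rw [← hs γ h1, ← ht γ h1, h]

theorem Eqv.eq_of_eq {s : Fin 3 → F} (hs : Eqv Γ p s) (htr : ∀ i j, ∃ γ ∈ Γ, p γ i = j)
    {i j : Fin 3} (hij : i ≠ j) (h : s i = s j) (m : Fin 3) : s m = s i := by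
  obtain ⟨γ, h1, h2⟩ := htr m i
  have h3 := congrArg γ h
  rw [hs γ h1, hs γ h1] at h3
  have h4 : ∀ (π : Perm (Fin 3)) i j m, i ≠ j → π m = i →
      m = i ∨ m = j ∨ (π i = j ∧ π j = m) ∨ (π i = m ∧ π j = j) := by decide
  rcases h4 _ i j m hij h2 with rfl | rfl | ⟨h5, h6⟩ | ⟨h5, h6⟩
  · rfl
  · exact h.symm
  · rw [h5, h6] at h3
    rw [← h3, h]
  · rw [h5, h6] at h3
    rw [h3, h]

theorem NFT.exists_c (h : NFT Γ Φ p d q) (hκ : ∀ x, x ∈ Set.range κ ↔ Fx Γ x) {a₀ b₀ : k}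
    (ha : κ a₀ = a) (hb : κ b₀ = b) (hab : ∀ P : k →+* ℝ, P a₀ < 0 → P b₀ < 0)
    (S : Set (k →+* ℝ)) (hS : ∀ P ∈ S, ¬ PosP κ q P) :
    ∃ (c' : Fˣ) (Φ' : Subgroup (Perm (V4 a b c'))) (n : k), NFT Γ Φ' p d q ∧
      UIso (Pts (S4 a b c') Φ') (Pts (S4 a b c) Φ) ∧ (c' : F) = c * κ n ∧
      ∀ P : k →+* ℝ, (P ∈ S → P n < 0) ∧ (P ∉ S → 0 < P n) := by
  classical
  rcases isEmpty_or_nonempty (k →+* ℝ) with h0 | ⟨⟨P₀⟩⟩
  · exact ⟨c, Φ, 1, h, UIso.refl _, by simp, fun P => (h0.false P).elim⟩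
  have q0 := ne_of_prod h.prod
  obtain ⟨e₁, he₁⟩ := (hκ _).2 (Eqv.fx_sum h.eqv)
  obtain ⟨e₂, he₂⟩ := (hκ _).2 (Eqv.fx_sum (t := fun i => (q i)⁻¹) fun γ hγ i => by
    rw [map_inv₀, h.eqv γ hγ])
  have he₃ : κ e₂ = q 1 * q 2 + q 0 * q 2 + q 0 * q 1 := by
    have := q0 0
    have := q0 1
    have := q0 2
    rw [he₂]
    field_simp
    linear_combination (-(q 1 * q 2 + q 0 * q 2 + q 0 * q 1)) * h.prod
  obtain ⟨s, t, hs⟩ := exists_open2 (fun P : k →+* ℝ => if P ∈ S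
    then {v | v.1 < 0 ∧ 1 - P e₂ * v.1 + P e₁ * v.1 ^ 2 - v.1 ^ 3 < 0}
    else {v | v.1 < 0 ∧ 0 < 1 - P e₂ * v.1 + P e₁ * v.1 ^ 2 - v.1 ^ 3})
    (fun P => by
      split_ifs <;> refine IsOpen.and ?_ ?_ <;> exact isOpen_lt (by fun_prop) (by fun_prop))
    fun P => by
      split_ifs with k1
      · obtain ⟨w, w1, i, w2, w3⟩ : ∃ w : F →+* ℂ, (∀ x, w (κ x) = P x) ∧
            ∃ i, (w (q i)).im = 0 ∧ (w (q i)).re ≤ 0 := by
          simpa only [PosP, not_forall, not_lt, exists_prop] using hS P k1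
        have w4 : w (q i) = ((w (q i)).re : ℝ) := Complex.ext rfl w2
        have w5 : (w (q i)).re < 0 := lt_of_le_of_ne w3 fun k2 => q0 i ((map_eq_zero w).1 (by
          rw [w4, k2, Complex.ofReal_zero]))
        have k2 : 1 - κ e₂ * q i + κ e₁ * q i ^ 2 - q i ^ 3 = 0 := by
          rw [he₁, he₃]
          fin_cases i <;> simp only [Fin.zero_eta, Fin.mk_one, Fin.reduceFinMk] <;>
            linear_combination (-1 : F) * h.prod
        have k3 : -κ e₂ + 2 * κ e₁ * q i - 3 * q i ^ 2 =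
            -((q (i + 1) - q i) * (q (i + 2) - q i)) := by
          rw [he₁, he₃]
          fin_cases i <;> simp only [Fin.zero_eta, Fin.mk_one, Fin.reduceFinMk, Fin.reduceAdd] <;>
            ring
        have k4 : ∀ j, j ≠ i → q j - q i ≠ 0 := fun j k4 k5 => by
          have k6 := Eqv.eq_of_eq h.eqv h.trn k4.symm (sub_eq_zero.1 k5).symm
          have k7 := congrArg w h.prod
          rw [k6 0, k6 1, k6 2, map_mul, map_mul, map_one, w4] at k7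
          norm_cast at k7
          nlinarith [mul_self_nonneg (w (q i)).re]
        obtain ⟨x, k5⟩ := exists_neg_cubic (e₁ := P e₁) (e₂ := P e₂) w5 (by
            have k5 := congrArg w k2
            simp only [map_sub, map_add, map_mul, map_pow, map_one, map_zero, w1] at k5
            rw [w4] at k5
            exact_mod_cast k5) fun k5 => by
          have k6 : ∀ i : Fin 3, i + 1 ≠ i ∧ i + 2 ≠ i := by decide
          refine mul_ne_zero (k4 _ (k6 i).1) (k4 _ (k6 i).2) (neg_eq_zero.1 (k3.symm.trans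
            ((map_eq_zero w).1 ?_)))
          simp only [map_sub, map_add, map_mul, map_pow, map_neg, map_ofNat, w1]
          rw [w4]
          exact_mod_cast k5
        exact ⟨(x, 0), k5⟩
      · obtain ⟨x, k5⟩ := exists_pos_cubic (P e₁) (P e₂)
        exact ⟨(x, 0), k5⟩
  have h1 : ∀ P : k →+* ℝ, P (1 - e₂ * s + e₁ * s ^ 2 - s ^ 3) =
      1 - P e₂ * P s + P e₁ * P s ^ 2 - P s ^ 3 := fun P => by simp
  have h2 : κ (1 - e₂ * s + e₁ * s ^ 2 - s ^ 3) ≠ 0 := (map_ne_zero κ).2 fun h0 => by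
    have k1 := hs P₀
    have k2 := h1 P₀
    rw [h0, map_zero] at k2
    split_ifs at k1 <;> rw [Set.mem_ofPred_eq, ← k2] at k1 <;> exact lt_irrefl _ k1.2
  have h3 : ∀ x, Fx Γ (κ x) := fun x => (hκ _).1 ⟨x, rfl⟩
  have h4 : κ (1 - e₂ * s + e₁ * s ^ 2 - s ^ 3) = (q 0 - κ s) * (q 1 - κ s) * (q 2 - κ s) := by
    simp only [map_sub, map_add, map_mul, map_pow, map_one, he₁, he₃]
    linear_combination (-1 : F) * h.prod
  have h5 : Fx h.pm.sb (q 0) := fun γ hγ => by rw [h.eqv γ hγ.1, hγ.2]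
  obtain ⟨y, y1, y2⟩ := exists_nrd (Γ := h.pm.sb) (a := a) (b := Units.mk0 _ (q0 0) * b)
    (c := Units.mk0 (q 0 - κ s) fun k1 => h2 (by rw [h4, k1, zero_mul, zero_mul]))
    (h.fa.mono h.pm.sb_le) (h5.mul (h.fb.mono h.pm.sb_le))
    (fun γ hγ => by rw [Units.val_mk0, map_sub, h5 γ hγ, h3 s γ hγ.1]) fun w w1 k1 k2 => by
      obtain ⟨P, hP⟩ := exists_place h3 fun x hx => w1 x (hx.mono h.pm.sb_le)
      have k3 := hs P
      have k4 : P s < 0 := by split_ifs at k3 <;> exact k3.1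
      have k5 := hab P (by rwa [← ha, hP] at k1)
      rw [Units.val_mul, Units.val_mk0, ← hb, map_mul, hP, Complex.mul_re, w1 _ h5,
        Complex.ofReal_re, zero_mul, sub_zero] at k2
      rw [Units.val_mk0, map_sub, hP, Complex.sub_re, Complex.ofReal_re]
      nlinarith
  obtain ⟨X, x1, -, x2, -, x3⟩ := h.exists_Q1 (h.trn 0) rfl fun γ k1 k2 => y1 γ ⟨k1, k2⟩
  have h6 := x3.ext (t := fun i => q i - κ s)
    (fun γ hγ i => by rw [map_sub, h.eqv γ hγ, h3 s γ hγ]) h.trn (x2.trans y2)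
  obtain ⟨ψ, ⟨_, _, s1⟩, k1⟩ := h.zq (c' := c * Units.mk0 _ h2) x1 (by
    rw [Units.val_mul, Units.val_mk0, h4, h6, h6, h6])
  refine ⟨_, _, _, ⟨k1, h.trn, h.sig⟩, uiso_tr4 s1 _, rfl, fun P => ⟨fun k2 => ?_, fun k2 => ?_⟩⟩ <;>
    have k3 := hs P
  · rw [if_pos k2] at k3
    exact h1 P ▸ k3.2
  · rw [if_neg k2] at k3
    exact h1 P ▸ k3.2

end Vale.Agent.P011N.Cl
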