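import Vale.Agent.P011N.Cl.D4.Zq

/-!
The normal form and the models of the trialitarian groups.
-/

namespace Vale.Agent.P011N.Cl

open Vale.Agent.P011.MPQ Vale.Agent.P011.D4 Vale.Agent.P011.D4.Oct Equiv Module
open Vale.Agent.P011.H900 (Oc om oc ap me Tri Twi Swp grp Aut Dvn Rl)

section rot

variable {F : Type} [Field F] [CharZero F] {a b c : Fˣ} {r s t : Gl F}

/-- The rotation of the summands. -/
def rot3 : Perm (Fin 3) := Equiv.addRight 2

theorem st4_rot (x : V4 a b c) (i : Fin 3) : st4 r rot3 x (rot3 i) = jO r (x i) := by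
  rw [st4_apply, so4, if_pos (by decide)]

theorem ext_rot {w v : V4 a b c → V4 a b c} (R : Perm (V4 a b c))
    (h1 : ∀ x, w (R x) = st4 r rot3 (w x)) (h2 : ∀ x, v (R x) = st4 r rot3 (v x))
    (h0 : ∀ x, w x 0 = v x 0) (x : V4 a b c) : w x = v x := by
  have h3 : ∀ i, (∀ x, w x i = v x i) → ∀ x, w x (rot3 i) = v x (rot3 i) := fun i h x => by
    obtain ⟨x, rfl⟩ := R.surjective x
    rw [h1, h2, st4_rot, st4_rot, h]
  funext i
  fin_cases i
  exacts [h0 x, h3 2 (h3 0 h0) x, h3 0 h0 x]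

theorem cp_mul {g h : Perm (V4 a b c)} (hg : g ∈ S4 a b c) (u : Oct a b c) :
    cp (g * h) 1 0 u = cp g 1 0 (cp h 1 0 u) := (sim4_one.2 (mem_S4.1 hg)).apply _ 0

/-- The first component. -/
def c0 : S4 a b c →* Perm (Oc (a : F) b) :=
  MonoidHom.toHomPerm
    { toFun := fun g u => toPair (cp g.1 1 0 (toPair.symm u))
      map_one' := funext fun _ => rfl
      map_mul' := fun g _ => funext fun _ => congrArg toPair (cp_mul g.2 _) }

theorem c0_apply (g : S4 a b c) (x : V4 a b c) : c0 g (toPair (x 0)) = toPair (g.1 x 0) :=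
  congrArg toPair ((sim4_one.2 (mem_S4.1 g.2)).apply x 0).symm

theorem tri_iff {f : Perm (Oc (a : F) b)} {g : Oct a b c → Oct a b c}
    (h : ∀ u, f (toPair u) = toPair (g u)) : Tri (c : F) r f ↔ Semi (id : F → F) g ∧
      ∀ u v, g (jO r (star u) * jO r (jO r (star v) : Oct a b c)) =
        jO r (star (g u)) * jO r (jO r (star (g v)) : Oct a b c) := by
  refine and_congr ⟨fun h1 t x y => toPair.injective ?_, fun h1 t x y => ?_⟩
    ⟨fun h1 x y => toPair.injective ?_, fun h1 x y => ?_⟩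
  · rw [← h, map_add, map_smul, h1, h, h]
    rfl
  · obtain ⟨x, rfl⟩ := (toPair (c := c)).surjective x
    obtain ⟨y, rfl⟩ := (toPair (c := c)).surjective y
    rw [← map_smul, ← map_add, h, h, h, h1]
    rfl
  · have h2 := h1 (toPair x) (toPair y)
    rw [h, h] at h2
    exact (h _).symm.trans h2
  · obtain ⟨x, rfl⟩ := (toPair (c := c)).surjective x
    obtain ⟨y, rfl⟩ := (toPair (c := c)).surjective y
    rw [h, h]
    exact (h _).trans (congrArg toPair (h1 x y))

theorem twi_iff {f : Perm (Oc (a : F) b)} {g : Oct a b c → Oct a b c}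
    (h : ∀ u, f (toPair u) = toPair (g u)) {d q : F} : Twi (c : F) r s d q f ↔
      ∀ u, g (el (ep d) q 1 * jO s u * el (ep d) (q * r q) 1) =
        el (ep d) q 1 * jO s (g u) * el (ep d) (q * r q) 1 := by
  simp only [el_ep]
  refine ⟨fun h1 x => toPair.injective ?_, fun h1 x => ?_⟩
  · have h2 := h1 (toPair x)
    rw [h] at h2
    exact (h _).symm.trans h2
  · obtain ⟨x, rfl⟩ := (toPair (c := c)).surjective x
    rw [h]
    exact (h _).trans (congrArg toPair (h1 x))

theorem swp_iff {f : Perm (Oc (a : F) b)} {g : Oct a b c → Oct a b c}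
    (h : ∀ u, f (toPair u) = toPair (g u)) : Swp t f ↔
      ∀ u, g (jO t (star u)) = jO t (star (g u)) := by
  refine ⟨fun h1 x => toPair.injective ?_, fun h1 x => ?_⟩
  · have h2 := h1 (toPair x)
    rw [h] at h2
    exact (h _).symm.trans h2
  · obtain ⟨x, rfl⟩ := (toPair (c := c)).surjective x
    rw [h]
    exact (h _).trans (congrArg toPair (h1 x))

theorem be_rot (hP : Par r a b c a b c) (x : V4 a b c) :
    be (st4 r rot3 x) = st4 r rot3 (be x) := by
  funext i
  obtain ⟨i, rfl⟩ := rot3.surjective i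
  have h := Sim4.obe (φ := stP r rot3) (sim4_st4 (π := rot3) hP) x i
  rwa [Pi.one_apply, one_smul, one_smul] at h

theorem tri_c0 (g : S4 a b c) (hg : stP r rot3 * g.1 = g.1 * stP r rot3) :
    Tri (c : F) r (c0 g) := by
  have s1 := sim4_one.2 (mem_S4.1 g.2)
  refine (tri_iff (g := cp g.1 1 0) fun _ => rfl).2 ⟨s1.cp_semi 0, fun u v => ?_⟩
  have h1 : ∀ x, g.1 (st4 r rot3 x) = st4 r rot3 (g.1 x) := fun x =>
    (DFunLike.congr_fun hg x).symm
  have h2 : ∀ u, cp g.1 1 2 (jO r u) = jO r (cp g.1 1 0 u) := fun u => by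
    have h3 := congrFun (h1 (Pi.single 0 u)) (rot3 0)
    rwa [st4_rot, show rot3 0 = (1 : Perm (Fin 3)) 2 from rfl, s1.apply,
      show st4 r rot3 _ 2 = _ from st4_rot _ 0, Pi.single_eq_same] at h3
  have h3 : ∀ u, cp g.1 1 1 (jO r u) = jO r (cp g.1 1 2 u) := fun u => by
    have h3 := congrFun (h1 (Pi.single 2 u)) (rot3 2)
    rwa [st4_rot, show rot3 2 = (1 : Perm (Fin 3)) 1 from rfl, s1.apply,
      show st4 r rot3 _ 1 = _ from st4_rot _ 2, Pi.single_eq_same] at h3
  have h4 := s1.obe ![0, jO r (jO r v : Oct a b c), jO r u] 0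
  rw [Pi.one_apply, one_smul, one_smul, s1.apply, be, be] at h4
  have h5 := s1.apply ![0, jO r (jO r v : Oct a b c), jO r u]
  simp only [jO_star, ← star_mul]
  refine h4.symm.trans (congrArg star ?_)
  rw [← h2, ← h2, ← h3]
  exact congrArg₂ (· * ·) (h5 1) (h5 2)

theorem exists_c0 (hP : Par r a b c a b c) (h3 : r * r * r = 1) {f : Perm (Oc (a : F) b)}
    (hf : Tri (c : F) r f) :
    ∃ g : S4 a b c, c0 g = f ∧ stP r rot3 * g.1 = g.1 * stP r rot3 := by
  let f₀ : Perm (Oct a b c) := toPair.toEquiv.symm.permCongr f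
  obtain ⟨h1, h2⟩ := (tri_iff (g := f₀) fun _ => rfl).1 hf
  let J : Perm (Oct a b c) := ⟨jO r, jO (⇑r⁻¹),
    fun u => jO_congr (f := ⇑r⁻¹ ∘ r) (g := id) r.symm_apply_apply u,
    fun u => jO_congr (f := r ∘ ⇑r⁻¹) (g := id) r.apply_symm_apply u⟩
  have j1 : Semi r J := fun t x y => (jO_add r _ _).trans (congrArg (· + _) (jO_smul r _ _))
  have j2 : J * J * J = 1 := Equiv.ext fun u =>
    jO_congr (f := ⇑(r * r * r)) (g := id) (fun t => by rw [h3]; rfl) u
  let g : Perm (V4 a b c) := Equiv.piCongrRight ![f₀, J * (J * f₀ * J⁻¹) * J⁻¹, J * f₀ * J⁻¹]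
  have g1 : ∀ x, g (stP r rot3 x) = st4 r rot3 (g x) := fun x => by
    funext i
    obtain ⟨i, rfl⟩ := rot3.surjective i
    rw [st4_rot]
    change _ = J _
    fin_cases i
    · exact congrArg (fun u => J (f₀ u)) ((congrArg J.symm (st4_rot x 0)).trans (J.left_inv _))
    · refine (congrArg f₀ (st4_rot x 1)).trans ?_
      change (f₀ * J) _ = (J * (J * (J * f₀ * J⁻¹) * J⁻¹)) _
      rw [show J = (J * J)⁻¹ from eq_inv_of_mul_eq_one_right j2]
      nth_rewrite 1 [← one_mul f₀]
      rw [← show J = (J * J)⁻¹ from eq_inv_of_mul_eq_one_right j2, ← j2]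
      congr 1
      rw [show J⁻¹ = J * J from inv_eq_of_mul_eq_one_left j2]
      simp only [mul_assoc, mul_right_inj]
      rw [← mul_assoc, ← mul_assoc, j2, one_mul]
    · exact congrArg (fun u => J ((J * f₀ * J⁻¹) u))
        ((congrArg J.symm (st4_rot x 2)).trans (J.left_inv _))
  have g2 : ∀ x, be (g x) = g (be x) := by
    refine ext_rot (r := r) (stP r rot3) (fun x => by rw [g1, be_rot hP])
      (fun x => by rw [stP_apply, be_rot hP, ← g1, stP_apply]) fun x => ?_
    have k1 := h2 (J⁻¹ (x 2)) (J⁻¹ (J⁻¹ (x 1)))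
    simp only [jO_star, ← star_mul] at k1
    refine k1.symm.trans (congrArg (fun u => f₀ (star u)) ?_)
    exact congrArg₂ (· * ·) (((J * J).apply_symm_apply _)) (J.apply_symm_apply _)
  have g3 : Semi (id : F → F) g := fun t x y => funext fun i => by
    have k1 : ∀ {e : Perm (Oct a b c)}, Semi (id : F → F) e → Semi (id : F → F) ⇑(J * e * J⁻¹) :=
      fun h => by
        have k2 := (j1.mul (semi_one.2 h)).mul j1.inv
        rwa [mul_one, mul_inv_cancel] at k2
    fin_cases i
    exacts [h1 t _ _, k1 (k1 h1) t _ _, k1 h1 t _ _]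
  have g4 : ∀ (x : V4 a b c) i, norm (g x i) = norm (x i) := fun x i => by
    obtain ⟨i, rfl⟩ := (Equiv.addRight 1).surjective i
    let y : V4 a b c := fun j => if j = i + 1 then x j else 1
    have k0 : ∀ u v : V4 a b c, ∀ j, u j = v j → g u j = g v j := fun u v j h =>
      congrArg (fun w => (![f₀, J * (J * f₀ * J⁻¹) * J⁻¹, J * f₀ * J⁻¹] j) w) h
    have k1 : ∀ u : V4 a b c, star (u (i + 1) * be u (i + 2)) = norm (u (i + 1)) • u i := fun u => by
      rw [be, (fin3_add i).2.2.1, (fin3_add i).2.2.2, star_mul, star_star, mul_mul_star]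
    have k2 : y (i + 1) = x (i + 1) := if_pos rfl
    let z : V4 a b c := fun j => if j = i + 1 then y j else be y j
    have k3 : z (i + 2) = be y (i + 2) := if_neg (by clear k1 k2 z y; revert i; decide)
    have k4 : z (i + 1) = y (i + 1) := if_pos rfl
    have k5 := congrFun (g2 z) i
    rw [be, k0 _ _ _ k3, k0 _ _ _ k4, ← g2, k1, k0 (be z) (norm (y (i + 1)) • y) i (by
      rw [be, k3, k4, k1, Pi.smul_apply]), (semi_one.2 g3).smul, Pi.smul_apply] at k5
    have k6 : g y i ≠ 0 := fun h0 => by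
      have k7 : y i = 1 := if_neg (by clear k1 k2 k3 k4 k5 h0 z y; revert i; decide)
      have k8 := (h0.trans (congrFun (semi_one.2 g3).zero i).symm)
      exact oct_one_ne (k7.symm.trans (Equiv.injective _ k8))
    exact (congrArg Oct.norm (k0 _ _ _ k2.symm)).trans
      ((smul_left_injective F k6 k5).trans (congrArg Oct.norm k2))
  refine ⟨⟨g, mem_S4.2 ((sim4_one.2 (sim4_of_be (μ := 1) (t := 1) g3
    (fun x i => (g4 x i).trans (one_mul _).symm) (fun _ => one_ne_zero)
    (fun x => by rw [g2, one_smul]) one_ne_zero)).cast rfl rfl (fun _ => rfl) (one_mul _))⟩,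
    Equiv.ext fun _ => rfl, Equiv.ext fun x => (g1 x).symm⟩

end rot

end Vale.Agent.P011N.Cl
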