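import Vale.Agent.P011N.Cl.D4.NF

/-!
From a pair of opposite points of the hexagon to the normal form.
-/

namespace Vale.Agent.P011N.Cl

open Vale.Agent.P011.MPQ Vale.Agent.P011.D4 Vale.Agent.P011.D4.Oct Equiv Module

section bp

variable {F : Type} [Field F] {A B C A' B' C' : Fˣ} {x y x' y' : V4 A B C}

/-- The product of two triples. -/
def bp (x y : V4 A B C) : V4 A B C := fun i => star (x (i + 1) * y (i + 2))

/-- The componentwise multiple. -/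
def sc (l : Fin 3 → F) (x : V4 A B C) : V4 A B C := fun i => l i • x i

theorem ln_sc (l : Fin 3 → F) (x : V4 A B C) : Ln (sc l x) x := fun _ => ⟨_, rfl⟩

theorem sc_add (l : Fin 3 → F) : sc l (x + y) = sc l x + sc l y := funext fun _ => smul_add _ _ _

theorem sc_sc (l m : Fin 3 → F) : sc l (sc m x) = sc (l * m) x := funext fun _ => smul_smul _ _ _

theorem sc_inj (hx : ∀ i, x i ≠ 0) {l m : Fin 3 → F} (h : sc l x = sc m x) : l = m :=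
  funext fun i => smul_left_injective F (hx i) (congrFun h i)

theorem Ln.exists_sc (h : Ln x y) : ∃ l, x = sc l y := by
  choose l hl using h
  exact ⟨l, funext hl⟩

theorem bp_sc (l m : Fin 3 → F) (i : Fin 3) :
    bp (sc l x) (sc m y) i = (l (i + 1) * m (i + 2)) • bp x y i := by
  rw [bp, bp, sc, sc, smul_mul_smul_comm, star_smul_oct]

theorem Ln.bp (h : Ln x x') (h' : Ln y y') : Ln (bp x y) (bp x' y') := by
  obtain ⟨l, rfl⟩ := h.exists_sc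
  obtain ⟨m, rfl⟩ := h'.exists_sc
  exact fun i => ⟨_, bp_sc l m i⟩

theorem be_add (hx : be x = 0) (hy : be y = 0) : be (x + y) = bp x y + bp y x := by
  funext i
  have h1 := congrFun hx i
  have h2 := congrFun hy i
  simp only [be, Pi.zero_apply] at h1 h2
  simp only [be, bp, Pi.add_apply, mul_add, add_mul, star_add, h1, h2, zero_add, add_zero]
  exact add_comm _ _

theorem Ln.be_zero (h : Ln x y) (hy : Cl.be y = 0) : Cl.be x = 0 := by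
  obtain ⟨l, hl⟩ := h.be.exists_sc
  rw [hl, hy]
  exact funext fun _ => smul_zero _

theorem mul_of_be (hx : be x = 0) (i : Fin 3) : x (i + 1) * x (i + 2) = 0 :=
  star_eq_zero.1 (congrFun hx i)

theorem norm_of_be (hx : be x = 0) (h0 : ∀ i, x i ≠ 0) (i : Fin 3) : norm (x i) = 0 := by
  have h1 := star_mul_mul (x (i + 2 + 1)) (x (i + 2 + 2))
  rw [mul_of_be hx, mul_zero, show i + 2 + 1 = i by rw [add_assoc]; exact add_zero i] at h1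
  exact (smul_eq_zero.1 h1.symm).resolve_right (h0 _)

variable [CharZero F] {γ : Gl F} {π : Perm (Fin 3)} {μ : Fin 3 → F} {ν : F}
  {φ : V4 A B C ≃ V4 A' B' C'}

theorem Sim4.map_sc (h : Sim4 γ π μ ν φ) (l : Fin 3 → F) (x : V4 A B C) :
    φ (sc l x) = sc (fun i => γ (l (π⁻¹ i))) (φ x) := h.scal l x

theorem Sim4.be_zero (h : Sim4 γ π μ ν φ) (hx : be x = 0) : be (φ x) = 0 := by
  obtain ⟨l, hl⟩ := (h.ln_be x).exists_sc
  rw [hl, hx, h.semi.zero]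
  exact funext fun _ => smul_zero _

theorem Sim4.ne_all (h : Sim4 γ π μ ν φ) (hx : ∀ i, x i ≠ 0) (i : Fin 3) : φ x i ≠ 0 := by
  obtain ⟨i, rfl⟩ := π.surjective i
  exact h.apply_ne (hx i)

theorem Sim4.ln_bp (h : Sim4 γ π μ ν φ) (x y : V4 A B C) :
    Ln (φ (bp x y)) (if Perm.sign π = 1 then bp (φ x) (φ y) else bp (φ y) (φ x)) := by
  intro j
  obtain ⟨i, rfl⟩ := π.surjective j
  let w : V4 A B C := fun j => if j = i + 1 then x j else y j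
  have h1 : w (i + 1) = x (i + 1) := if_pos rfl
  have h2 : w (i + 2) = y (i + 2) := if_neg (by clear h1 w; revert i; decide)
  obtain ⟨c, hc⟩ := h.ln_be' w (π i)
  refine ⟨c, ?_⟩
  rw [h.congr (y := be w) (by rw [bp, be, h1, h2]), hc, be]
  have h3 := h.congr h1
  have h4 := h.congr h2
  split_ifs with hs
  · obtain ⟨s, hs⟩ := even_perm π hs
    rw [hs, add_right_comm] at h3 h4
    rw [hs, bp, h3, h4]
  · obtain ⟨s, hs⟩ := odd_perm π hs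
    have k11 : ∀ s i : Fin 3, s - i + 1 = s - (i + 2) ∧ s - i + 2 = s - (i + 1) := by decide
    rw [hs] at h3 h4
    rw [hs, bp, (k11 s i).1, (k11 s i).2, h3, h4]

theorem bp_mul (hx : be x = 0) (i : Fin 3) : bp x y (i + 1) * bp y x (i + 2) = 0 := by
  have h : ∀ i : Fin 3, i + 1 + 1 = i + 2 ∧ i + 1 + 2 = i ∧ i + 2 + 1 = i ∧ i + 2 + 2 = i + 1 := by
    decide
  rw [bp, bp, (h i).1, (h i).2.1, (h i).2.2.1, (h i).2.2.2, ← star_mul, moufang, mul_of_be hx,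
    mul_zero, zero_mul, star_zero]

theorem be_be (v : V4 A B C) (i : Fin 3) :
    be (be v) i = tau v • v i - norm (v i) • be v i := by
  have h : ∀ i : Fin 3, i + 1 + 1 = i + 2 ∧ i + 1 + 2 = i ∧ i + 2 + 1 = i ∧ i + 2 + 2 = i + 1 := by
    decide
  rw [tau_eq v i, be, be, be, be, (h i).1, (h i).2.1, (h i).2.2.1, (h i).2.2.2, ← star_mul,
    star_star, moufang, flex, mul_mul_eq, bil_comm]

omit [CharZero F] in
theorem tau_add (hx : be x = 0) (hy : be y = 0) : tau (x + y) = 0 := by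
  have h1 := mul_of_be hx
  have h2 := mul_of_be hy
  have h3 : ∀ u v w : Oct A B C, v * w = 0 → bil (u * v * w) 1 = 0 := fun u v w h => by
    rw [tr_cyc, h, zero_mul, bil_zero_left]
  have h4 : ∀ u v w : Oct A B C, w * u = 0 → bil (u * v * w) 1 = 0 := fun u v w h => by
    rw [← tr_cyc, h, zero_mul, bil_zero_left]
  simp only [tau, Pi.add_apply, mul_add, add_mul, bil_add_left]
  rw [h3 _ (x 1) (x 2) (h1 0), h3 _ (x 1) (x 2) (h1 0), h3 _ (y 1) (y 2) (h2 0),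
    h3 _ (y 1) (y 2) (h2 0), h4 (x 0) _ (x 2) (h1 1), h4 (y 0) _ (y 2) (h2 1),
    show y 0 * y 1 = 0 from h2 2, show x 0 * x 1 = 0 from h1 2]
  simp

theorem unit_be (hx : be x = 0) (hy : be y = 0) (hx0 : ∀ i, x i ≠ 0) (hy0 : ∀ i, y i ≠ 0)
    (hb : ∀ i, bil (x i) (y i) ≠ 0) : Unit4 (be (x + y)) := by
  have h1 : ∀ i, norm ((x + y) i) ≠ 0 := fun i => by
    rw [Pi.add_apply, norm_add, norm_of_be hx hx0, norm_of_be hy hy0, zero_add, zero_add]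
    exact hb i
  exact ⟨fun i => by rw [norm_be]; exact mul_ne_zero (h1 _) (h1 _), fun i =>
    ⟨_, by rw [be_be, tau_add hx hy, zero_smul, zero_sub, ← neg_smul]⟩⟩

theorem exists_idm (hx : be x = 0) (hy : be y = 0) (hx0 : ∀ i, x i ≠ 0) (hy0 : ∀ i, y i ≠ 0)
    (hb : ∀ i, bil (x i) (y i) ≠ 0) (h1 : Ln (be (x + y)) 1) :
    ∃ f, Idm f ∧ ∃ c, (∀ i, c i ≠ 0) ∧ bp x y = sc c (fun _ => f) ∧
      bp y x = sc c fun _ => star f := by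
  choose c hc using h1
  have h0 : ∀ i, c i ≠ 0 := fun i h0 =>
    (unit_be hx hy hx0 hy0 hb).ne i (by rw [hc, h0, zero_smul])
  rw [be_add hx hy] at hc
  let f : V4 A B C := fun i => (c i)⁻¹ • bp x y i
  have h2 : ∀ i, bp x y i = c i • f i := fun i => (smul_inv_smul₀ (h0 i) _).symm
  have h3 : ∀ i, bp y x i = c i • (1 - f i) := fun i => by
    rw [smul_sub, ← h2, eq_sub_iff_add_eq']
    exact hc i
  have h4 : ∀ i, Idm (f i) := fun i => by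
    have k1 : norm (f i) = 0 := by
      rw [Oct.norm_smul, bp, Oct.norm_star, Oct.norm_mul, norm_of_be hx hx0, zero_mul, mul_zero]
    have k2 : norm (bp y x i) = 0 := by
      rw [bp, Oct.norm_star, Oct.norm_mul, norm_of_be hy hy0, zero_mul]
    rw [h3, Oct.norm_smul, norm_sub, k1, Oct.norm_one, bil_comm] at k2
    have k3 := (mul_eq_zero.1 k2).resolve_left (pow_ne_zero _ (h0 i))
    exact ⟨k1, by linear_combination -k3⟩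
  have h5 : ∀ i, f (i + 1) = f (i + 2) := fun i => by
    have k1 := bp_mul (y := y) hx i
    have k2 := bp_mul (y := x) hy i
    rw [h2, h3, smul_mul_smul_comm, smul_eq_zero_iff_right (mul_ne_zero (h0 _) (h0 _))] at k1 k2
    rw [mul_sub, mul_one, sub_eq_zero] at k1
    rw [sub_mul, one_mul, sub_eq_zero] at k2
    exact k1.trans k2.symm
  have h6 : ∀ i, f i = f 0 := fun i => by
    fin_cases i
    exacts [rfl, (h5 2).symm, h5 1]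
  exact ⟨f 0, h4 0, c, h0, funext fun i => by rw [h2, h6, sc],
    funext fun i => by rw [h3, h6, sc, (h4 0).star_eq]⟩

theorem Au.eq_of_ln {θ : V4 A B C → V4 A B C} {α : Oct A B C → Oct A B C} (h : Au γ π θ α)
    {f g : Oct A B C} (hf : Idm f) (hg : Idm g) (hl : Ln (θ fun _ => f) fun _ => sg π g) :
    α f = g := by
  obtain ⟨l, h1, h2⟩ := h.eq
  obtain ⟨c, hc⟩ := hl (π 0)
  have h3 := congrArg (sg π) hc
  rw [h2, sg_smul, sg_smul, sg_sg, sg_sg] at h3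
  have h4 := congrArg (bil · 1) h3
  simp only [bil_smul_left, (h.idm hf).2, hg.2, mul_one] at h4
  rw [← h4] at h3
  exact smul_right_injective _ (h1 _) h3

end bp

section hex

variable {F : Type} [Field F] [NumberField F] {A B C : Fˣ} {Γ : Subgroup (Gl F)}
  {Φ : Subgroup (Perm (V4 A B C))} {p : Gl F → Perm (Fin 3)} {d : F} {q : Fin 3 → F}
  {x y : V4 A B C}

theorem ne_neg {d : F} (hd0 : d ≠ 0) : ¬ -d = d := fun h =>
  hd0 (by linear_combination (-1 / 2 : F) * h)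

theorem hex_nf0 (h : Dat4 Γ Φ) (hp : Pm Γ Φ p) (hd0 : d ≠ 0) (hd : ∀ γ ∈ Γ, γ d = d ∨ γ d = -d)
    (hq : q 0 * q 1 * q 2 = 1) (he : ∀ γ ∈ Γ, ∀ i, γ (q i) = q (p γ i)) (hx : be x = 0)
    (hy : be y = 0) (hx0 : ∀ i, x i ≠ 0) (hy0 : ∀ i, y i ≠ 0) (hb : ∀ i, bil (x i) (y i) ≠ 0)
    (h1 : Ln (be (x + y)) 1) {N : F}
    (hR : ∀ φ ∈ Φ, ∀ γ : Gl F, Semi γ φ → ∃ l, (γ d = d → φ x = sc l x ∧ φ y = sc l y) ∧
      (γ d = -d → φ x = sc l y ∧ φ y = sc l (sc (fun i => N * q i) x))) :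
    ∃ f α, NF0 Γ Φ p d q f α := by
  classical
  obtain ⟨f, hf, c, hc, k1, k2⟩ := exists_idm hx hy hx0 hy0 hb h1
  obtain ⟨M, ⟨μ, ν, s1⟩, hM⟩ := hf.exists_mp hq
  obtain ⟨_, _, s2⟩ := sim4_lin_symm ⟨_, _, s1⟩
  have hf0 : ∀ {g : Oct A B C}, Idm g → g ≠ 0 := fun hg h0 => by
    have := hg.2
    rw [h0, bil_zero_left] at this
    exact zero_ne_one this
  have l1 : Ln (fun _ => f) (bp x y) := by
    rw [k1]
    exact (ln_sc _ _).symm fun i => smul_ne_zero (hc i) (hf0 hf)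
  have l2 : Ln 1 (be (x + y)) := h1.symm (unit_be hx hy hx0 hy0 hb).ne
  have l3 : ∀ {g : Oct A B C} (π : Perm (Fin 3)) {u v : V4 A B C}, Ln u (fun _ => g) →
      Ln v (fun _ => star g) → Ln (if Perm.sign π = 1 then u else v) fun _ => sg π g := by
    intro g π u v hu hv
    rw [sg]
    split_ifs
    exacts [hu, hv]
  have l4 : Ln (bp x y) fun _ => f := k1 ▸ ln_sc _ _
  have l5 : Ln (bp y x) fun _ => star f := k2 ▸ ln_sc _ _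
  have hP : ∀ φ ∈ Φ, ∀ γ : Gl F, Semi γ φ → γ d = d → ∃ α, Au γ (p γ) φ α ∧ α f = f := by
    intro φ hφ γ hγ h2
    obtain ⟨_, _, s3⟩ := hp.sim φ hφ γ hγ
    obtain ⟨l, hl, -⟩ := hR φ hφ γ hγ
    obtain ⟨k3, k4⟩ := hl h2
    obtain ⟨α, hα⟩ := s3.exists_au ((s3.ln l2).trans ((s3.ln_be' _).trans (by
      rw [hγ.add, k3, k4, ← sc_add]
      exact (ln_sc _ _).be.trans h1)))
    refine ⟨α, hα, hα.eq_of_ln hf hf ((s3.ln l1).trans ((s3.ln_bp x y).trans ?_))⟩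
    rw [k3, k4]
    exact l3 _ (((ln_sc _ _).bp (ln_sc _ _)).trans l4) (((ln_sc _ _).bp (ln_sc _ _)).trans l5)
  have hQ : ∀ φ ∈ Φ, ∀ γ : Gl F, Semi γ φ → γ d = -d →
      ∃ α, Au γ (p γ) ⇑(M⁻¹ * φ) α ∧ α f = star f := by
    intro φ hφ γ hγ h2
    obtain ⟨_, _, s3⟩ := hp.sim φ hφ γ hγ
    obtain ⟨l, -, hl⟩ := hR φ hφ γ hγ
    obtain ⟨k3, k4⟩ := hl h2
    have s4 : Sim4 γ (p γ) _ _ ⇑(M⁻¹ * φ) :=
      ((sim4_one.2 s2).comp s3).cast (one_mul _) (one_mul _) (fun _ => rfl) rfl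
    have l6 : ∀ {u v : V4 A B C}, Ln (φ u) (M v) → Ln ((M⁻¹ * φ) u) v := fun {u v} hl => by
      have k5 := (sim4_one.2 s2).ln hl
      rwa [M.symm_apply_apply] at k5
    obtain ⟨α, hα⟩ := s4.exists_au (l6 ((s3.ln l2).trans ((s3.ln_be' _).trans (by
      rw [hγ.add, k3, k4, ← sc_add]
      refine (ln_sc _ _).be.trans fun i => ⟨c i * N, ?_⟩
      have k5 : y = sc 1 y := funext fun _ => (one_smul _ _).symm
      rw [be_add hy ((ln_sc _ _).be_zero hx), hM, hf.mp_one, Pi.add_apply]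
      nth_rewrite 1 2 [k5]
      rw [bp_sc, bp_sc, k1, k2, el, sc, sc, Pi.one_apply, Pi.one_apply]
      module))))
    refine ⟨α, hα, hα.eq_of_ln hf hf.ostar (l6 ((s3.ln l1).trans ((s3.ln_bp x y).trans ?_)))⟩
    rw [k3, k4, sc_sc]
    refine (l3 (g := star f) _ (((ln_sc _ _).bp (ln_sc _ _)).trans l5)
      (((ln_sc _ _).bp (ln_sc _ _)).trans (by rwa [star_star]))).trans (Ln.symm ?_ ?_)
    · rw [hM, sg]
      split_ifs
      · exact fun i => ⟨_, hf.mp_star i⟩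
      · rw [star_star]
        exact fun i => ⟨_, hf.mp_self i⟩
    · refine (sim4_one.2 s1).ne_all fun _ => ?_
      rw [sg]
      split_ifs
      exacts [hf0 hf.ostar, hf0 hf.ostar.ostar]
  choose! φ m1 m2 using h.ov.onto
  let θ : Gl F → Perm (V4 A B C) := fun γ => if γ d = d then φ γ else M⁻¹ * φ γ
  have t1 : ∀ γ, γ d = d → θ γ = φ γ := fun γ h2 => if_pos h2
  have t2 : ∀ γ, γ d = -d → θ γ = M⁻¹ * φ γ := fun γ h2 => if_neg (by rw [h2]; exact ne_neg hd0)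
  have t3 : ∀ γ ∈ Γ, ∀ δ ∈ Γ, ∃ z ∈ Z4 A B C, φ (γ * δ) = z * (φ γ * φ δ) := fun γ hγ δ hδ =>
    h.exists_Z4 (Φ.mul_mem (m1 γ hγ) (m1 δ hδ)) (m1 _ (Γ.mul_mem hγ hδ))
      ((m2 γ hγ).mul (m2 δ hδ)) (m2 _ (Γ.mul_mem hγ hδ))
  have t4 : ∀ z ∈ Z4 A B C, ∀ u, M⁻¹ (z u) = z (M⁻¹ u) := fun z hz u => by
    rw [Perm.inv_eq_iff_eq, hM, mp_Z4 hz, ← hM]
    exact congrArg z (M.apply_symm_apply u).symm
  obtain ⟨α, ha, hα⟩ := exists_oact hp.mul hp.one (fun γ => θ γ) (fun γ hγ => by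
      rcases hd γ hγ with h2 | h2
      · rw [t1 γ h2]
        exact (hP _ (m1 γ hγ) γ (m2 γ hγ) h2).imp fun _ h => h.1
      · rw [t2 γ h2]
        exact (hQ _ (m1 γ hγ) γ (m2 γ hγ) h2).imp fun _ h => h.1)
    (fun γ hγ δ hδ => by
      obtain ⟨z, hz, t5⟩ := t3 γ hγ δ hδ
      rcases hd γ hγ with h2 | h2 <;> rcases hd δ hδ with h3 | h3
      · rw [t1 γ h2, t1 δ h3, t1 _ (by rw [AlgEquiv.mul_apply, h3, h2]), t5]
        exact ⟨z, hz, fun _ => rfl⟩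
      · rw [t1 γ h2, t2 δ h3, t2 _ (by rw [AlgEquiv.mul_apply, h3, map_neg, h2]), t5]
        obtain ⟨β, k3, k4⟩ := hP _ (m1 γ hγ) γ (m2 γ hγ) h2
        refine ⟨z, hz, fun u => ?_⟩
        simp only [Perm.mul_apply]
        rw [t4 z hz, Perm.inv_eq_iff_eq.2]
        rw [hM, ← k4, ← k3.map_mp hf (he γ hγ), ← hM]
        exact congrArg _ (M.apply_symm_apply _).symm
      · rw [t2 γ h2, t1 δ h3, t2 _ (by rw [AlgEquiv.mul_apply, h3, h2]), t5]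
        exact ⟨z, hz, fun u => t4 z hz _⟩
      · rw [t2 γ h2, t2 δ h3, t1 _ (by rw [AlgEquiv.mul_apply, h3, map_neg, h2, neg_neg]), t5]
        obtain ⟨β, k3, k4⟩ := hQ _ (m1 γ hγ) γ (m2 γ hγ) h2
        have h0 := ne_of_prod hq
        refine ⟨z * zs (fun i => q (i + 1) * q (i + 2)) fun i => mul_ne_zero (h0 _) (h0 _),
          (Z4 A B C).mul_mem hz (zs_mem _ _), fun u => congrArg z (funext fun i => ?_)⟩
        rw [zs_apply, ← hf.ostar.mp_mp, star_star, ← k4, ← k3.map_mp hf (he γ hγ), ← hM, ← hM]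
        simp)
    (by
      obtain ⟨z, hz, k3⟩ := h.exists_Z4 Φ.one_mem (m1 _ Γ.one_mem) semi_id (m2 _ Γ.one_mem)
      exact ⟨z, hz, fun x => by rw [t1 1 rfl, k3]; rfl⟩)
  refine ⟨f, α, h, hp, hd0, hd, hq, he, hf, ha, fun γ hγ h2 => ?_, fun γ hγ h2 => ?_,
    fun γ hγ h2 => ⟨_, m1 γ hγ, t1 γ h2 ▸ hα γ hγ⟩,
    fun γ hγ h2 => ⟨_, m1 γ hγ, _, hα γ hγ, fun u => ?_⟩⟩
  · obtain ⟨β, k3, k4⟩ := hP _ (m1 γ hγ) γ (m2 γ hγ) h2
    rw [← t1 γ h2] at k3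
    rw [← k3.unique (hα γ hγ), k4]
  · obtain ⟨β, k3, k4⟩ := hQ _ (m1 γ hγ) γ (m2 γ hγ) h2
    rw [← t2 γ h2] at k3
    rw [← k3.unique (hα γ hγ), k4]
  · rw [t2 γ h2, ← hM]
    simp

theorem Dat4.eq_of_eq (h : Dat4 Γ Φ) {φ φ' : Perm (V4 A B C)} (hφ : φ ∈ Φ) (hφ' : φ' ∈ Φ)
    {γ : Gl F} (h1 : Semi γ φ) (h2 : Semi γ φ') (hx : ∀ i, φ x i ≠ 0) (he : φ' x = φ x) :
    φ' = φ := by
  obtain ⟨z, hz, rfl⟩ := h.exists_Z4 hφ hφ' h1 h2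
  obtain ⟨l, hl⟩ := mem_Z4.1 hz
  have h3 : ∀ i, l i = 1 := fun i => smul_left_injective F (hx i)
    ((hl _ i).symm.trans ((congrFun he i).trans (one_smul _ _).symm))
  ext1 u
  funext i
  rw [Perm.mul_apply, hl, h3, one_smul]

theorem Dat4.exists_eq (h : Dat4 Γ Φ) {φ : Perm (V4 A B C)} (hφ : φ ∈ Φ) {γ : Gl F}
    (h1 : Semi γ φ) (hx : ∀ i, x i ≠ 0) (hl : Ln (φ x) y) :
    ∃ φ' ∈ Φ, Semi γ φ' ∧ φ' x = y := by
  obtain ⟨l, hl⟩ := hl.exists_sc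
  obtain ⟨_, _, _, s1⟩ := h.sim_of hφ h1
  have h0 : ∀ i, l i ≠ 0 := fun i h0 => s1.ne_all hx i (by rw [hl, sc, h0, zero_smul])
  have hz := (Z4 A B C).inv_mem (zs_mem l h0)
  exact ⟨_ * φ, Φ.mul_mem (h.sat hz) hφ, Semi.lin_comp (f := φ) (semi_Z4 hz) h1, by
    rw [Perm.mul_apply, Perm.inv_eq_iff_eq, hl]
    rfl⟩

theorem Dat4.exists_act (h : Dat4 Γ Φ) (hx : ∀ i, x i ≠ 0) (hl : ∀ φ ∈ Φ, Ln (φ x) x) :
    ∃ θ : Gl F → Perm (V4 A B C), Act Γ (fun γ => θ γ) ∧ ∀ γ ∈ Γ, θ γ ∈ Φ ∧ θ γ x = x := by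
  have h1 : ∀ γ ∈ Γ, ∃ θ ∈ Φ, Semi γ θ ∧ θ x = x := fun γ hγ => by
    obtain ⟨φ, h2, h3⟩ := h.ov.onto γ hγ
    exact h.exists_eq h2 h3 hx (hl φ h2)
  choose! θ h2 h3 h4 using h1
  refine ⟨θ, ⟨h3, fun γ hγ δ hδ u => ?_, fun u => ?_⟩, fun γ hγ => ⟨h2 γ hγ, h4 γ hγ⟩⟩
  · have h5 : (θ γ * θ δ) x = x := by rw [Perm.mul_apply, h4 δ hδ, h4 γ hγ]
    rw [h.eq_of_eq (Φ.mul_mem (h2 γ hγ) (h2 δ hδ)) (h2 _ (Γ.mul_mem hγ hδ))
      ((h3 γ hγ).mul (h3 δ hδ)) (h3 _ (Γ.mul_mem hγ hδ)) (x := x) (by rwa [h5])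
      (by rw [h5, h4 _ (Γ.mul_mem hγ hδ)])]
    rfl
  · rw [h.eq_of_eq Φ.one_mem (h2 _ Γ.one_mem) semi_id (h3 _ Γ.one_mem) (x := x) hx
      (h4 _ Γ.one_mem)]
    rfl

omit [NumberField F] in
theorem tr_tr {U V W : Type} (ψ : U ≃ V) (ψ' : V ≃ W) (Φ : Subgroup (Perm W)) :
    tr ψ (tr ψ' Φ) = tr (ψ.trans ψ') Φ := rfl

theorem hex_ratio (h : Dat4 Γ Φ) (hp : Pm Γ Φ p) (hd : ∀ γ ∈ Γ, γ d = d ∨ γ d = -d)
    (hx0 : ∀ i, x i ≠ 0) (hy0 : ∀ i, y i ≠ 0)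
    (hθ : ∀ γ ∈ Γ, γ d = d → ∃ θ ∈ Φ, Semi γ θ ∧ θ x = x ∧ θ y = y) {τ : Perm (V4 A B C)}
    (hτ : τ ∈ Φ) {σ : Gl F} (hσ : Semi σ τ) (hσd : σ d = -d) (h1 : τ x = y) {ρ : Fin 3 → F}
    (h2 : τ y = sc ρ x) :
    (∀ φ ∈ Φ, ∀ γ : Gl F, Semi γ φ → ∃ l, (γ d = d → φ x = sc l x ∧ φ y = sc l y) ∧
      (γ d = -d → γ d ≠ d → φ x = sc l y ∧ φ y = sc l (sc ρ x))) ∧
      (d ≠ 0 → ∀ γ ∈ Γ, ∀ i, γ (ρ i) = ρ (p γ i)) := by
  have k1 : ∀ φ ∈ Φ, ∀ γ : Gl F, Semi γ φ → γ d = d → ∃ l, φ x = sc l x ∧ φ y = sc l y := by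
    intro φ hφ γ hγ h3
    obtain ⟨θ, k1, k2, k3, k4⟩ := hθ γ (h.ov.mem hφ hγ) h3
    obtain ⟨z, hz, rfl⟩ := h.exists_Z4 k1 hφ k2 hγ
    obtain ⟨l, hl⟩ := mem_Z4.1 hz
    exact ⟨l, by rw [Perm.mul_apply, k3]; exact funext (hl x),
      by rw [Perm.mul_apply, k4]; exact funext (hl y)⟩
  obtain ⟨_, _, s1⟩ := hp.sim τ hτ σ hσ
  have k2 : ∀ φ ∈ Φ, ∀ γ : Gl F, Semi γ φ → γ d = -d →
      ∃ l, φ x = sc l y ∧ φ y = sc l (sc ρ x) := by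
    intro φ hφ γ hγ h3
    obtain ⟨l, k3, k4⟩ := k1 _ (Φ.mul_mem (Φ.inv_mem hτ) hφ) _ (hσ.inv.mul hγ) (by
      rw [AlgEquiv.mul_apply, h3, ← hσd]
      exact σ.symm_apply_apply d)
    rw [Perm.mul_apply, Perm.inv_eq_iff_eq, s1.map_sc] at k3 k4
    exact ⟨_, h1 ▸ k3, h2 ▸ k4⟩
  refine ⟨fun φ hφ γ hγ => ?_, fun hd0 γ hγ i => ?_⟩
  · by_cases h3 : γ d = d
    · obtain ⟨l, hl⟩ := k1 φ hφ γ hγ h3
      exact ⟨l, fun _ => hl, fun _ h4 => absurd h3 h4⟩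
    · obtain ⟨l, hl⟩ := k2 φ hφ γ hγ ((hd γ (h.ov.mem hφ hγ)).resolve_left h3)
      exact ⟨l, fun h4 => absurd h4 h3, fun _ _ => hl⟩
  · obtain ⟨φ, hφ, h3⟩ := h.ov.onto γ hγ
    obtain ⟨_, _, s2⟩ := hp.sim φ hφ γ h3
    have k3 : ∀ {l : Fin 3 → F} {v : V4 A B C}, φ x = sc l v → l (p γ i) ≠ 0 := fun h5 h0 =>
      s2.ne_all hx0 (p γ i) (by rw [h5, sc, h0, zero_smul])
    have k4 : (p γ)⁻¹ (p γ i) = i := (p γ).symm_apply_apply i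
    rcases hd γ hγ with h4 | h4
    · obtain ⟨l, k5, k6⟩ := k1 φ hφ γ h3 h4
      obtain ⟨l', k7, k8⟩ := k2 _ (Φ.mul_mem hφ hτ) _ (h3.mul hσ)
        (by rw [AlgEquiv.mul_apply, hσd, map_neg, h4])
      rw [Perm.mul_apply, h1, k6] at k7
      rw [Perm.mul_apply, h2, s2.map_sc, k5, ← sc_inj hy0 k7, sc_sc, sc_sc] at k8
      have k9 := congrFun (sc_inj hx0 k8) (p γ i)
      rw [Pi.mul_apply, Pi.mul_apply, k4, mul_comm] at k9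
      exact mul_left_cancel₀ (k3 k5) k9
    · obtain ⟨l, k5, k6⟩ := k2 φ hφ γ h3 h4
      obtain ⟨l', k7, k8⟩ := k1 _ (Φ.mul_mem hφ hτ) _ (h3.mul hσ)
        (by rw [AlgEquiv.mul_apply, hσd, map_neg, h4, neg_neg])
      rw [Perm.mul_apply, h1, k6, sc_sc] at k7
      rw [Perm.mul_apply, h2, s2.map_sc, k5, ← sc_inj hx0 k7, sc_sc] at k8
      have k9 := congrFun (sc_inj hy0 k8) (p γ i)
      rw [Pi.mul_apply, Pi.mul_apply, k4, mul_comm] at k9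
      exact mul_left_cancel₀ (k3 k5) k9

/-- **The normal form from a point of the hexagon which is opposite to its conjugate.** -/
theorem hexagon (h : Dat4 Γ Φ) (hp : Pm Γ Φ p) (hd0 : d ≠ 0) (hd : ∀ γ ∈ Γ, γ d = d ∨ γ d = -d)
    (htr : ∀ i j, ∃ γ ∈ Γ, γ d = d ∧ p γ i = j) (hx0 : ∀ i, x i ≠ 0) (hx : be x = 0)
    (hl : ∀ φ ∈ Φ, ∀ γ : Gl F, Semi γ φ → γ d = d → Ln (φ x) x) {τ : Perm (V4 A B C)}
    (hτ : τ ∈ Φ) {σ : Gl F} (hσ : Semi σ τ) (hσd : σ d = -d) {i₀ : Fin 3}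
    (hb : bil (x i₀) (τ x i₀) ≠ 0) :
    ∃ (a b c : Fˣ) (ψ : V4 a b c ≃ V4 A B C) (q : Fin 3 → F), (∃ μ ν, Sim4 id 1 μ ν ψ) ∧
      NF Γ (tr ψ Φ) p d q := by
  obtain ⟨_, _, s1⟩ := hp.sim τ hτ σ hσ
  have hy0 := s1.ne_all hx0
  have hy := s1.be_zero hx
  have hσ' : σ⁻¹ (-d) = d := by
    rw [← hσd]
    exact σ.symm_apply_apply d
  have hl' : ∀ φ ∈ Φ, ∀ γ : Gl F, Semi γ φ → γ d = d → Ln (φ (τ x)) (τ x) := by
    intro φ hφ γ hγ h1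
    have h2 := s1.ln (hl _ (Φ.mul_mem (Φ.inv_mem hτ) (Φ.mul_mem hφ hτ)) _
      (hσ.inv.mul (hγ.mul hσ))
      (by rw [AlgEquiv.mul_apply, AlgEquiv.mul_apply, hσd, map_neg, h1, hσ']))
    simpa using h2
  have hb' : ∀ j, bil (x j) (τ x j) ≠ 0 := fun j h0 => by
    obtain ⟨γ, h1, h2, rfl⟩ := htr i₀ j
    obtain ⟨φ, h3, h4⟩ := h.ov.onto γ h1
    obtain ⟨_, _, s2⟩ := hp.sim φ h3 γ h4
    have h5 := s2.obil x (τ x) i₀
    obtain ⟨c, hc⟩ := hl φ h3 γ h4 h2 (p γ i₀)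
    obtain ⟨c', hc'⟩ := hl' φ h3 γ h4 h2 (p γ i₀)
    rw [hc, hc', bil_smul_left, bil_smul_right, h0, mul_zero, mul_zero] at h5
    exact mul_ne_zero (s2.ne _) ((map_ne_zero γ).2 hb) h5.symm
  obtain ⟨θ, ha, hθ⟩ := (h.res (stb_le (d := d))).exists_act hy0
    fun φ ⟨h1, γ, h2, h3⟩ => hl' φ h1 γ h3 h2.2
  let U : Submodule F (V4 A B C) :=
    { carrier := {v | Ln v x}
      add_mem' := fun {u v} hu hv i => by
        obtain ⟨c, hc⟩ := hu i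
        obtain ⟨c', hc'⟩ := hv i
        exact ⟨c + c', by rw [Pi.add_apply, hc, hc', add_smul]⟩
      zero_mem' := fun i => ⟨0, (zero_smul _ _).symm⟩
      smul_mem' := fun t v hv => (ln_sc (fun _ => t) v).trans hv }
  have hs : ∀ γ ∈ stb Γ d, ∃ μ ν, Sim4 γ (p γ) μ ν (θ γ) :=
    fun γ hγ => hp.sim _ (hθ γ hγ).1.1 γ (ha.semi γ hγ)
  obtain ⟨x₁, k1, k2, k3⟩ := ha.exists_ne U (fun γ hγ v hv => by
      obtain ⟨_, _, s2⟩ := hs γ hγ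
      exact (s2.ln hv).trans (hl _ (hθ γ hγ).1.1 γ (ha.semi γ hγ) hγ.2))
    fun h0 => hx0 0 (congrFun ((Submodule.eq_bot_iff U).1 h0 x (Ln.refl x)) 0)
  have k4 : ∀ j, x₁ j ≠ 0 := fun j => by
    obtain ⟨i, hi⟩ := Function.ne_iff.1 k2
    obtain ⟨γ, h1, h2, rfl⟩ := htr i j
    obtain ⟨_, _, s2⟩ := hs γ ⟨h1, h2⟩
    have h3 := s2.apply_ne hi
    rwa [show θ γ x₁ = x₁ from k3 γ ⟨h1, h2⟩] at h3
  obtain ⟨τ₁, t1, t2, t3⟩ := h.exists_eq hτ hσ k4 (s1.ln k1)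
  obtain ⟨ρ, t4⟩ : ∃ ρ, τ₁ (τ x) = sc ρ x₁ := Ln.exists_sc ((hl _ (Φ.mul_mem t1 hτ) _ (t2.mul hσ)
    (by rw [AlgEquiv.mul_apply, hσd, map_neg, hσd, neg_neg])).trans (Ln.symm k1 k4))
  obtain ⟨r1, r2⟩ := hex_ratio h hp hd k4 hy0 (fun γ h1 h2 => ⟨θ γ, (hθ γ ⟨h1, h2⟩).1.1,
    ha.semi γ ⟨h1, h2⟩, k3 γ ⟨h1, h2⟩, (hθ γ ⟨h1, h2⟩).2⟩) t1 t2 hσd t3 t4
  have hρ : ∀ i, ρ i ≠ 0 := fun i h0 => by
    obtain ⟨_, _, s2⟩ := hp.sim _ t1 σ t2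
    exact s2.ne_all hy0 i (by rw [t4, sc, h0, zero_smul])
  have hN : ρ 0 * ρ 1 * ρ 2 ≠ 0 := mul_ne_zero (mul_ne_zero (hρ 0) (hρ 1)) (hρ 2)
  have l1 : Ln (sc ρ⁻¹ x₁) x := (ln_sc _ _).trans k1
  have k5 : ∀ i, sc ρ⁻¹ x₁ i ≠ 0 := fun i => smul_ne_zero (inv_ne_zero (hρ i)) (k4 i)
  have k6 : ∀ i, bil (sc ρ⁻¹ x₁ i) (τ x i) ≠ 0 := fun i h0 => by
    obtain ⟨c, hc⟩ := l1.symm k5 i
    exact hb' i (by rw [hc, bil_smul_left, h0, mul_zero])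
  obtain ⟨ψ, ⟨_, _, s2⟩, l2⟩ := (unit_be (l1.be_zero hx) hy k5 hy0 k6).exists_sim
  obtain ⟨_, _, s3⟩ := sim4_lin_symm ⟨_, _, s2⟩
  have s4 := sim4_one.2 s2
  obtain ⟨f, α, h0⟩ := hex_nf0 (q := fun i => ρ i ^ 3 / (ρ 0 * ρ 1 * ρ 2)) (h.tr s3) (hp.tr s3)
    hd0 hd (by have := hρ 0; have := hρ 1; have := hρ 2; field_simp) (fun γ hγ i => by
      have h1 : γ (ρ 0 * ρ 1 * ρ 2) = ρ 0 * ρ 1 * ρ 2 := by
        rw [← Fin.prod_univ_three, map_prod]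
        exact Fintype.prod_equiv (p γ) _ _ (r2 hd0 γ hγ)
      rw [map_div₀, map_pow, h1, r2 hd0 γ hγ])
    (s4.be_zero (l1.be_zero hx)) (s4.be_zero hy) (s4.ne_all k5) (s4.ne_all hy0)
    (fun i => by
      have h1 := s4.obil (sc ρ⁻¹ x₁) (τ x) i
      rw [Perm.one_apply] at h1
      rw [h1]
      exact mul_ne_zero (s4.ne i) (k6 i))
    (by rw [← s4.semi.add]; exact (s4.ln_be _).trans l2) (N := ρ 0 * ρ 1 * ρ 2)
    fun φ hφ γ hγ => by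
      rw [mem_tr] at hφ
      have h1 := (semi_congr s3.semi).2 hγ
      obtain ⟨l, h2, h3⟩ := r1 _ hφ γ h1
      obtain ⟨_, _, s5⟩ := hp.sim _ hφ γ h1
      have h4 : ∀ v, φ (ψ v) = ψ (ψ.symm.permCongr φ v) := fun v => by simp
      have h5 : ∀ l v, ψ (sc l v) = sc l (ψ v) := fun l v => s2.comm_Z4 v
      have h6 : (fun i => γ (ρ⁻¹ ((p γ)⁻¹ i))) = ρ⁻¹ := funext fun i => by
        rw [Pi.inv_apply, map_inv₀, r2 hd0 γ (h.ov.mem hφ h1)]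
        exact congrArg (fun j => (ρ j)⁻¹) ((p γ).apply_symm_apply i)
      by_cases h7 : γ d = d
      · refine ⟨l, fun _ => ?_, fun h8 => absurd (h8.symm.trans h7) (ne_neg hd0)⟩
        rw [h4, h4, s5.map_sc, h6, (h2 h7).1, (h2 h7).2, sc_sc, mul_comm, ← sc_sc, h5, h5 l]
        exact ⟨rfl, rfl⟩
      · refine ⟨ρ⁻¹ * l, fun h8 => absurd h8 h7, fun h8 => ?_⟩
        rw [h4, h4, s5.map_sc, h6, (h3 h8 h7).1, (h3 h8 h7).2, sc_sc, h5, ← h5, ← h5, sc_sc, sc_sc,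
          ← h5, sc_sc]
        refine ⟨rfl, congrArg (fun l => ψ (sc l x₁)) (funext fun i => ?_)⟩
        have := hρ i
        simp only [Pi.mul_apply, Pi.inv_apply, mul_div_cancel₀ _ hN]
        field_simp
  obtain ⟨a, b, c, E, s5, h1⟩ := h0.exists_nf
  exact ⟨a, b, c, E.trans ψ.symm, _, sim4_lin_trans ⟨_, _, s5⟩ ⟨_, _, s3⟩, h1⟩

end hex

end Vale.Agent.P011N.Cl
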