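import Vale.Agent.P011N.Cl.D4.Hex

/-!
Points of the hexagon over the quadratic extension.
-/

namespace Vale.Agent.P011N.Cl

open Vale.Agent.P011.MPQ Vale.Agent.P011.D4 Vale.Agent.P011.D4.Oct Equiv Module

section xq

variable {F : Type} [Field F] [CharZero F] {β : Fˣ}

/-- The matrices of rank one. -/
def xq (s t : F) : Qt 1 β := ⟨s - t, -(s + t), 1 - s * t / β, 1 + s * t / β⟩

omit [CharZero F] in
theorem xq_mul (r s t : F) : (xq r s : Qt 1 β) * xq s t = 0 := by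
  ext <;> simp [xq] <;> field_simp <;> ring

omit [CharZero F] in
theorem star_xq (s t : F) : star (xq s t : Qt 1 β) = (-1 : F) • xq t s := by
  ext <;> simp [xq] <;> ring

omit [CharZero F] in
theorem xq_eq (s t : F) : (xq s t : Qt 1 β) = ⟨0, 0, 1, 1⟩ + s • ⟨1, -1, 0, 0⟩ +
    t • ⟨-1, -1, 0, 0⟩ + (s * t) • ⟨0, 0, -(β : F)⁻¹, (β : F)⁻¹⟩ := by
  ext <;> simp [xq] <;> ring

theorem xq_ind {P : Qt 1 β → Prop} (h1 : ∀ u v, P u → P v → P (u + v))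
    (h2 : ∀ (t : F) u, P u → P (t • u)) (h3 : ∀ s t, P (xq s t)) (u : Qt 1 β) : P u := by
  have h4 : u = ((u.imJ + u.imK) / 2 + u.imI + β * (u.imK - u.imJ) / 2) • xq 0 0 +
      ((u.re - u.imI) / 2 - β * (u.imK - u.imJ) / 2) • xq 1 0 +
      (-(u.re + u.imI) / 2 - β * (u.imK - u.imJ) / 2) • xq 0 1 +
      (β * (u.imK - u.imJ) / 2) • xq 1 1 := by
    ext <;> simp [xq] <;> field_simp <;> ring
  rw [h4]
  exact h1 _ _ (h1 _ _ (h1 _ _ (h2 _ _ (h3 _ _)) (h2 _ _ (h3 _ _))) (h2 _ _ (h3 _ _)))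
    (h2 _ _ (h3 _ _))

theorem pm_xq {U W : Type} [AddCommGroup U] [Module F U] [AddCommGroup W] [Module F W]
    {γ : Gl F} {f : Qt 1 β → W} (hf : Semi γ f) (s t : U →ₗ[F] F) :
    PM F fun v => f (xq (γ.symm (s v)) (γ.symm (t v))) := by
  simp only [xq_eq, hf.add, hf.smul, map_mul, AlgEquiv.apply_symm_apply]
  exact (((PM.const _).add (PM.smul (PF.lin s) (PM.const _))).add
    (PM.smul (PF.lin t) (PM.const _))).add (PM.smul (PF.mul (PF.lin s) (PF.lin t)) (PM.const _))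

end xq

variable {F : Type} [Field F] [NumberField F] {A B C : Fˣ} {Γ : Subgroup (Gl F)}
  {Φ : Subgroup (Perm (V4 A B C))} {p : Gl F → Perm (Fin 3)} {d : F}

theorem act_perm {κ : Type} {ϱ : Gl F → Perm κ} (h1 : ∀ γ ∈ Γ, ∀ δ ∈ Γ, ϱ (γ * δ) = ϱ γ * ϱ δ)
    (h2 : ϱ 1 = 1) : Act Γ fun γ (s : κ → F) j => γ (s ((ϱ γ)⁻¹ j)) where
  semi γ _ t x y := funext fun j => by simp
  mul γ hγ δ hδ x := funext fun j => by rw [h1 γ hγ δ hδ, mul_inv_rev]; rfl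
  one x := funext fun j => by rw [h2]; rfl

theorem trans_of_trial (hp : Pm Γ Φ p) (h : ∀ i, ∃ γ ∈ Γ, p γ i ≠ i) (i j : Fin 3) :
    ∃ γ ∈ Γ, p γ i = j := by
  choose γ h1 h2 using h
  have h3 : ∀ (π : Fin 3 → Perm (Fin 3)), (∀ i, π i i ≠ i) → ∀ i j, i = j ∨
      (∃ k, π k i = j ∨ (π k)⁻¹ i = j) ∨ ∃ k l, (π k)⁻¹ (π l i) = j := by
    intro π h i j
    by_contra hcon
    push Not at hcon
    obtain ⟨k1, k2, k3⟩ := hcon
    have k4 : ∀ i j u v : Fin 3, i ≠ j → u ≠ i → u ≠ j → v ≠ i → v ≠ j → u = v := by decide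
    refine k3 j i (Perm.inv_eq_iff_eq.2 (k4 i j _ _ k1 (h i) (k2 i).1 (fun k5 => ?_) (h j)))
    exact (k2 j).2 (Perm.inv_eq_iff_eq.2 k5.symm)
  rcases h3 (fun k => p (γ k)) h2 i j with h4 | ⟨k, h4 | h4⟩ | ⟨k, l, h4⟩
  · exact ⟨1, Γ.one_mem, by rw [hp.one]; exact h4⟩
  · exact ⟨_, h1 k, h4⟩
  · exact ⟨_, Γ.inv_mem (h1 k), by rwa [hp.inv (h1 k)]⟩
  · exact ⟨_, Γ.mul_mem (Γ.inv_mem (h1 k)) (h1 l), by
      rwa [hp.mul _ (Γ.inv_mem (h1 k)) _ (h1 l), hp.inv (h1 k)]⟩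

theorem trans_stb (hp : Pm Γ Φ p) (hd : ∀ γ ∈ Γ, γ d = d ∨ γ d = -d) {σ : Gl F} (hσ : σ ∈ Γ)
    (hσd : σ d = -d) (hσp : p σ = 1) (h : ∀ i j, ∃ γ ∈ Γ, p γ i = j) (i j : Fin 3) :
    ∃ γ ∈ Γ, γ d = d ∧ p γ i = j := by
  obtain ⟨γ, h1, h2⟩ := h i j
  rcases hd γ h1 with h3 | h3
  · exact ⟨γ, h1, h3, h2⟩
  · exact ⟨γ * σ, Γ.mul_mem h1 hσ, by rw [AlgEquiv.mul_apply, hσd, map_neg, h3, neg_neg],
      by rwa [hp.mul _ h1 _ hσ, hσp, mul_one]⟩

theorem hex_quat (h : Dat4 Γ Φ) (hp : Pm Γ Φ p) (hd0 : d ≠ 0) (hd : ∀ γ ∈ Γ, γ d = d ∨ γ d = -d)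
    (htr : ∀ i j, ∃ γ ∈ Γ, γ d = d ∧ p γ i = j) 
    (ha : OAct (stb Γ d) fun γ => (jO γ : Oct A B C → Oct A B C))
    (hst : ∀ γ ∈ Γ, γ d = d → stP γ (p γ) ∈ Φ) {τ : Perm (V4 A B C)} (hτ : τ ∈ Φ) {σ : Gl F}
    (hσ : Semi σ τ) (hσd : σ d = -d) (hσp : p σ = 1) {i m : Oct A B C} {β : Fˣ}
    (hb : Basic i m 1 β) (hi : Fix (stb Γ d) (fun γ => jO γ) i)
    (hm : Fix (stb Γ d) (fun γ => jO γ) m) (hβ : Fx (stb Γ d) (β : F))
    (hcon : ¬ ∃ (a b c : Fˣ) (ψ : V4 a b c ≃ V4 A B C) (q : Fin 3 → F),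
      (∃ μ ν, Sim4 id 1 μ ν ψ) ∧ NF Γ (tr ψ Φ) p d q) (u v : Qt 1 β) :
    bil (qemb i m u) (cp τ 1 0 (qemb i m v)) = 0 := by
  classical
  obtain ⟨_, _, s1⟩ := hp.sim τ hτ σ hσ
  rw [hσp] at s1
  let ϱ : Gl F → Perm (Fin 3 × Bool) := fun γ =>
    Equiv.prodCongr (p γ) (if γ d = d then 1 else swap true false)
  have h1 : Act Γ fun γ (s : Fin 3 × Bool → F) j => γ (s ((ϱ γ)⁻¹ j)) := by
    refine act_perm (fun γ hγ δ hδ => ?_) (by simp only [ϱ, hp.one, AlgEquiv.one_apply]; rfl)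
    have h2 := ne_neg hd0
    ext1 j
    rcases hd γ hγ with h3 | h3 <;> rcases hd δ hδ with h4 | h4 <;>
      simp [ϱ, hp.mul γ hγ δ hδ, h2, h3, h4, Prod.ext_iff]
  let P : AddSubmonoid (Fin 3 × Bool → F) :=
    { carrier := {s | Fix Γ (fun γ (s : Fin 3 × Bool → F) j => γ (s ((ϱ γ)⁻¹ j))) s}
      add_mem' := h1.add
      zero_mem' := fun γ hγ => (h1.semi γ hγ).zero }
  have q1 : Semi (⇑(1 : Gl F)) (qemb i m : Qt 1 β → Oct A B C) :=
    semi_of qemb_add qemb_smul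
  have q2 : Semi σ (cp τ 1 0 ∘ (qemb i m : Qt 1 β → Oct A B C)) := (s1.cp_semi 0).comp_lin q1
  have h2 := PF.ext P h1.span
    ((pm_xq q1 (LinearMap.proj (1, true)) (LinearMap.proj (2, true))).obil
      (pm_xq q2 (LinearMap.proj (1, false)) (LinearMap.proj (2, false)))) (PF.const 0)
    fun s hs => by
      by_contra h0
      have k1 : ∀ γ ∈ Γ, ∀ j, γ (s j) = s (ϱ γ j) := fun γ hγ j => by
        have k2 : γ (s ((ϱ γ)⁻¹ (ϱ γ j))) = _ := congrFun (hs γ hγ) (ϱ γ j)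
        rwa [show (ϱ γ)⁻¹ (ϱ γ j) = j from (ϱ γ).symm_apply_apply j] at k2
      have k2 : ∀ γ ∈ Γ, γ d = d → ∀ j, γ (s (j, true)) = s (p γ j, true) := fun γ hγ k3 j => by
        simp [k1 γ hγ, ϱ, k3]
      have k3 : ∀ j, σ.symm (s (j, false)) = s (j, true) := fun j => by
        rw [AlgEquiv.symm_apply_eq]
        simp [k1 σ (h.ov.mem hτ hσ), ϱ, hσd, ne_neg hd0, hσp]
      let x : V4 A B C := fun j => qemb i m (xq (s (j + 1, true)) (s (j + 2, true)) : Qt 1 β)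
      refine hcon (hexagon h hp hd0 hd htr (x := x) (fun j k4 => ?_) (funext fun j => ?_)
        (fun φ hφ γ hγ k4 => ?_) hτ hσ hσd (i₀ := 0) ?_)
      · have k5 := hb.bil_qemb_qemb (xq (s (j + 1, true)) (s (j + 2, true))) ⟨0, 0, 1, -1⟩
        change bil (x j) _ = _ at k5
        rw [k4, bil_zero_left] at k5
        simp only [nrd, xq, QuaternionAlgebra.mk_add_mk, Units.val_one] at k5
        exact β.ne_zero (by linear_combination (1 / 4 : F) * k5)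
      · have k4 : ∀ i : Fin 3, i + 1 + 2 = i ∧ i + 2 + 1 = i := by decide
        simp only [be, x]
        rw [← hb.qemb_mul, (k4 j).1, (k4 j).2, xq_mul, qemb_zero, star_zero, Pi.zero_apply]
      · have k5 := h.ov.mem hφ hγ
        obtain ⟨z, hz, rfl⟩ := h.exists_Z4 (hst γ k5 k4) hφ semi_st4 hγ
        refine (ln_Z4 hz _).trans fun j => ?_
        obtain ⟨j, rfl⟩ := (p γ).surjective j
        have k6 : (jO γ (x j) : Oct A B C) = qemb i m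
            (xq (s (p γ (j + 1), true)) (s (p γ (j + 2), true)) : Qt 1 β) := by
          have k8 : ∀ u v : Oct A B C, (jO γ (u * v) : Oct A B C) = jO γ u * jO γ v :=
            ha.omul γ ⟨k5, k4⟩
          have k9 : jO γ i = i := hi γ ⟨k5, k4⟩
          have k10 : jO γ m = m := hm γ ⟨k5, k4⟩
          simp only [x, qemb, jO_add, jO_smul, k8, k9, k10, jO_one, xq, map_sub, map_add, map_neg,
            map_div₀, map_mul, map_one, k2 γ k5 k4, hβ γ ⟨k5, k4⟩]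
        rw [stP_apply, st4_apply, so4, k6]
        split_ifs with hs
        · obtain ⟨t, ht⟩ := even_perm _ hs
          exact ⟨1, by simp only [one_smul, x, ht, add_right_comm j]⟩
        · obtain ⟨t, ht⟩ := odd_perm _ hs
          have k11 : ∀ s i : Fin 3, s - i + 1 = s - (i + 2) ∧ s - i + 2 = s - (i + 1) := by decide
          exact ⟨-1, by simp only [hb.star_qemb, star_xq, qemb_smul, x, ht, k11]⟩
      · have k4 := s1.apply x 0
        rw [Perm.one_apply] at k4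
        rw [k4]
        simp only [LinearMap.proj_apply, k3] at h0
        exact h0
  refine xq_ind (P := fun v => bil (qemb i m u) (cp τ 1 0 (qemb i m v)) = 0)
    (fun v w k1 k2 => ?_) (fun t v k1 => ?_) (fun s t => ?_) v
  · rw [qemb_add, (s1.cp_semi 0).add, bil_add_right, k1, k2, add_zero]
  · rw [qemb_smul, (s1.cp_semi 0).smul, bil_smul_right, k1, mul_zero]
  · refine xq_ind (P := fun u => bil (qemb i m u) (cp τ 1 0 (qemb i m (xq s t))) = 0)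
      (fun v w k1 k2 => ?_) (fun t v k1 => ?_) (fun s' t' => ?_) u
    · rw [qemb_add, bil_add_left, k1, k2, add_zero]
    · rw [qemb_smul, bil_smul_left, k1, mul_zero]
    · have k1 := h2 fun j => if j.2 then (if j.1 = 1 then s' else t')
        else if j.1 = 1 then σ s else σ t
      simp only [LinearMap.proj_apply, Bool.false_eq_true, if_false, if_true,
        show ¬ (2 : Fin 3) = 1 by decide, AlgEquiv.symm_apply_apply] at k1
      exact k1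

/-- The normal form when the octonions over the quadratic extension are split. -/
theorem exists_nf_split (h : Dat4 Γ Φ) (hp : Pm Γ Φ p) (hd0 : d ≠ 0)
    (hd : ∀ γ ∈ Γ, γ d = d ∨ γ d = -d) (htr : ∀ i j, ∃ γ ∈ Γ, γ d = d ∧ p γ i = j)
    (hA : Fx (stb Γ d) (A : F)) (hB : Fx (stb Γ d) (B : F)) (hC : Fx (stb Γ d) (C : F))
    (hw : ∀ w, ¬ RlG (stb Γ d) w) (hst : ∀ γ ∈ Γ, γ d = d → stP γ (p γ) ∈ Φ) {σ : Gl F}
    (hσ : σ ∈ Γ) (hσd : σ d = -d) (hσp : p σ = 1) :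
    ∃ (a b c : Fˣ) (ψ : V4 a b c ≃ V4 A B C) (q : Fin 3 → F),
      (∃ μ ν, Sim4 id 1 μ ν ψ) ∧ NF Γ (tr ψ Φ) p d q := by
  by_contra hcon
  obtain ⟨τ, t1, t2⟩ := h.ov.onto σ hσ
  obtain ⟨β, κ, i, j, l, f1, f2, f3, f4, f5, ht⟩ :=
    exists_split hA hB hC fun w k => absurd k (hw w)
  have ha := oact_jO hA hB hC
  have h1 := hex_quat h hp hd0 hd htr ha hst t1 t2 hσd hσp ht.toBasic f3 f4 f1 hcon
  have b2 : Basic i l 1 κ :=
    ⟨ht.i_one, ht.perp.1, (bil_comm _ _).trans ht.perp.2.1, ht.norm_i, ht.norm_l⟩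
  have h2 := hex_quat h hp hd0 hd htr ha hst t1 t2 hσd hσp b2 f3 f5 f2 hcon
  have b3 : Basic i (j * l) 1 (-(β * κ)) :=
    ⟨ht.i_one, by rw [bil_mul_left, mul_one, ht.star_j, bil_neg_right, ht.perp.2.2.1, neg_zero],
      by rw [bil_mul_right, ht.star_j, neg_mul, ht.j_i, neg_neg, bil_comm, ht.perp.2.2.2],
      ht.norm_i, by rw [Oct.norm_mul, ht.norm_j, ht.norm_l]; simp⟩
  have h3 := hex_quat h hp hd0 hd htr ha hst t1 t2 hσd hσp b3 f3 (ha.fix_mul f4 f5)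
    (f1.mul f2).neg hcon
  obtain ⟨_, _, s1⟩ := hp.sim τ t1 σ t2
  rw [hσp] at s1
  refine s1.cp_ne 0 oct_one_ne (eq_zero_of_bil fun y => ?_)
  obtain ⟨E, k1, k2, -⟩ := exists_emb ht.trip
  obtain ⟨x, rfl⟩ := E.surjective y
  have k3 : x = ⟨x.fst, 0⟩ + (x.snd.re • gl + x.snd.imI • (gi * gl)) +
      (x.snd.imJ • (gj * gl) + (-x.snd.imK) • (gi * (gj * gl))) := by
    apply ext8 <;> simp [gi, gj, gl]
  have k4 : E gi = i := by simp [k1, Oct.emb, qemb, gi]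
  have k5 : E gj = j := by simp [k1, Oct.emb, qemb, gj]
  have k6 : E gl = l := by simp [k1, Oct.emb, qemb, gl]
  have k7 := h1 x.fst 1
  have k8 := h2 ⟨0, 0, x.snd.re, x.snd.imI⟩ 1
  have k9 := h3 ⟨0, 0, x.snd.imJ, -x.snd.imK⟩ 1
  rw [qemb_one] at k7 k8 k9
  rw [qemb, zero_smul, zero_smul, zero_add, zero_add] at k8 k9
  rw [k3, bil_comm, map_add, map_add, bil_add_left, bil_add_left, k1 ⟨_, _⟩, Oct.emb, qemb_zero,
    zero_mul, add_zero, k7]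
  simp only [map_add, map_smul, k2, k4, k5, k6, k8, k9, add_zero]

end Vale.Agent.P011N.Cl
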