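import Vale.Agent.P011N.Cl.D4.Start
import Vale.Agent.P011N.Cl.T.Desc

/-!
Extension and restriction of the field for the normal form.
-/

namespace Vale.Agent.P011N.Cl

open Vale.Agent.P011.MPQ Vale.Agent.P011.D4 Vale.Agent.P011.D4.Oct Equiv Module

variable {F F' : Type} [Field F] [NumberField F] [Field F'] [NumberField F'] {a b c : Fˣ}
  {a' b' c' : F'ˣ} {ι : F →+* F'} {Γ : Subgroup (Gl F)} {Γ' : Subgroup (Gl F')}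
  {p : Gl F → Perm (Fin 3)} {d : F} {q : Fin 3 → F} {γ : Gl F} {γ' : Gl F'}

theorem st4_j4 (hγ : ∀ x, γ' (ι x) = ι (γ x)) (π : Perm (Fin 3)) (x : V4 a b c) :
    st4 γ' π (j4 ι x : V4 a' b' c') = j4 ι (st4 γ π x) := by
  funext i
  have h1 : ∀ u : Oct a b c, (jO γ' (jO ι u : Oct a' b' c') : Oct a' b' c') =
      jO ι (jO γ u : Oct a b c) := fun u => jO_congr (f := γ' ∘ ι) (g := ι ∘ γ) hγ u
  simp only [st4, j4, h1]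
  split_ifs
  exacts [rfl, (jO_star ι _).symm]

omit [NumberField F] [NumberField F'] in
theorem mp_j4 (hP : Par ι a b c a' b' c') (x : V4 a b c) :
    mp (ep (ι d)) (fun i => ι (q i)) (j4 ι x : V4 a' b' c') = j4 ι (mp (ep d) q x) := by
  funext i
  simp only [mp, j4, el, jO_mul hP, jO_add, jO_smul, jO_star, jO_ep, map_one]

theorem NFT.lift {Φ : Subgroup (Perm (V4 a b c))} (h : NFT Γ Φ p d q) (hE : Ext ι Γ Γ')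
    (hP : Par ι a b c a' b' c') :
    ∃ (Φ' : Subgroup (Perm (V4 a' b' c'))) (p' : Gl F' → Perm (Fin 3)),
      NFT Γ' Φ' p' (ι d) (fun i => ι (q i)) ∧ UIso (Pts (S4 a b c) Φ) (Pts (S4 a' b' c') Φ') ∧
      ∀ γ ∈ Γ, ∀ γ' ∈ Γ', (∀ x, γ' (ι x) = ι (γ x)) → p' γ' = p γ := by
  obtain ⟨Φ', h', hL, h1⟩ := h.dat.exists_lift hE hP
  obtain ⟨p', hp'⟩ := h'.exists_pm
  have hpp : ∀ γ ∈ Γ, ∀ γ' ∈ Γ', (∀ x, γ' (ι x) = ι (γ x)) → p' γ' = p γ :=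
    fun γ k1 γ' k2 => hL.pm h.dat hP h.pm hp' k1 k2
  have h2 : ι d ^ 2 = a' := by rw [← map_pow, h.sq, hP.1]
  have h3 : ι (q 0) * ι (q 1) * ι (q 2) = 1 := by rw [← map_mul, ← map_mul, h.prod, map_one]
  refine ⟨Φ', p', ⟨⟨h', hp', hP.1 ▸ hE.fx h.fa, hP.2.1 ▸ hE.fx h.fb, hP.2.2 ▸ hE.fx h.fc, h2, h3,
    fun γ' k1 i => ?_, fun γ' k1 k2 => ?_, fun γ' k1 k2 => ?_⟩, fun i j => ?_, ?_⟩,
    hL.uiso4 hE hP h.dat.ov, hpp⟩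
  · obtain ⟨γ, k3, k4⟩ := hE.down γ' k1
    rw [k4, h.eqv γ k3, hpp γ k3 γ' k1 k4]
  · obtain ⟨γ, k3, k4⟩ := hE.down γ' k1
    refine (h1 _).2 ⟨⟨γ', k1, semi_st4⟩, _, h.st γ k3 (ι.injective (by rw [← k4, k2])), 1,
      (Z4 a' b' c').one_mem, fun x => ?_⟩
    rw [stP_apply, stP_apply, hpp γ k3 γ' k1 k4, st4_j4 k4]
    rfl
  · obtain ⟨γ, k3, k4⟩ := hE.down γ' k1
    obtain ⟨φ, k5, k6⟩ := h.tw γ k3 (ι.injective (by rw [← k4, k2, map_neg]))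
    obtain ⟨M, ⟨_, _, s1⟩, hM⟩ := (idm_ep (b := b') (c := c') h2).exists_mp
      (q := fun i => ι (q i)) h3
    refine ⟨M * stP γ' (p' γ'), (h1 _).2 ⟨⟨γ', k1, Semi.lin_comp (f := st4 γ' (p' γ')) s1.semi
      semi_st4⟩, φ, k5, 1,
      (Z4 a' b' c').one_mem, fun x => ?_⟩, fun x => hM _⟩
    rw [Perm.mul_apply, hM, stP_apply, hpp γ k3 γ' k1 k4, st4_j4 k4, mp_j4 hP, k6]
    rfl
  · obtain ⟨γ, k1, k2⟩ := h.trn i j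
    obtain ⟨γ', k3, k4⟩ := hE.up γ k1
    exact ⟨γ', k3, by rw [hpp γ k1 γ' k3 k4, k2]⟩
  · obtain ⟨γ, k1, k2, k5⟩ := h.sig
    obtain ⟨γ', k3, k4⟩ := hE.up γ k1
    exact ⟨γ', k3, by rw [k4, k2, map_neg], by rw [hpp γ k1 γ' k3 k4, k5]⟩

theorem NFT.descend {Φ : Subgroup (Perm (V4 a b c))} (h : NFT Γ Φ p d q) :
    ∃ (E : Type) (_ : Field E) (_ : NumberField E) (ι : E →+* F) (Γ₁ : Subgroup (Gl E))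
      (a₁ b₁ c₁ : Eˣ) (Φ₁ : Subgroup (Perm (V4 a₁ b₁ c₁))) (p₁ : Gl E → Perm (Fin 3)) (d₁ : E)
      (q₁ : Fin 3 → E), Ext ι Γ₁ Γ ∧ Par ι a₁ b₁ c₁ a b c ∧ (∀ i, ι (q₁ i) = q i) ∧
      NFT Γ₁ Φ₁ p₁ d₁ q₁ ∧ UIso (Pts (S4 a₁ b₁ c₁) Φ₁) (Pts (S4 a b c) Φ) ∧
      ∀ γ ∈ Γ₁, p₁ γ = 1 → γ d₁ = d₁ → γ = 1 := by
  let Δ : Subgroup (Gl F) :=
    { carrier := {γ | γ ∈ Γ ∧ p γ = 1 ∧ γ d = d}
      mul_mem' := fun {γ δ} h1 h2 => ⟨Γ.mul_mem h1.1 h2.1,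
        by rw [h.pm.mul γ h1.1 δ h2.1, h1.2.1, h2.2.1, mul_one],
        by rw [AlgEquiv.mul_apply, h2.2.2, h1.2.2]⟩
      one_mem' := ⟨Γ.one_mem, h.pm.one, rfl⟩
      inv_mem' := fun {γ} h1 => ⟨Γ.inv_mem h1.1, by rw [h.pm.inv h1.1, h1.2.1, inv_one],
        γ.symm_apply_eq.2 h1.2.2.symm⟩ }
  obtain ⟨E, _, _, ι, Γ₁, hE, hr, hΔ⟩ := ext_fixed (Δ := Δ) (fun _ h => h.1) fun γ hγ δ hδ =>
    ⟨Γ.mul_mem (Γ.mul_mem (Γ.inv_mem hγ) hδ.1) hγ, by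
      rw [h.pm.mul _ (Γ.mul_mem (Γ.inv_mem hγ) hδ.1) _ hγ, h.pm.mul _ (Γ.inv_mem hγ) _ hδ.1,
        hδ.2.1, h.pm.inv hγ, mul_one, inv_mul_cancel], by
      rw [AlgEquiv.mul_apply, AlgEquiv.mul_apply]
      refine γ.symm_apply_eq.2 ?_
      rcases h.sgn hγ with h1 | h1 <;> simp [h1, hδ.2.2]⟩
  obtain ⟨a₁, ha⟩ := exists_unit ((hr _).2 fun γ hγ => h.fa γ hγ.1)
  obtain ⟨b₁, hb⟩ := exists_unit ((hr _).2 fun γ hγ => h.fb γ hγ.1)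
  obtain ⟨c₁, hc⟩ := exists_unit ((hr _).2 fun γ hγ => h.fc γ hγ.1)
  obtain ⟨d₁, rfl⟩ := (hr d).2 fun γ hγ => hγ.2.2
  choose q₁ hq using fun i => (hr (q i)).2 fun γ hγ => by rw [h.eqv γ hγ.1, hγ.2.1]; rfl
  obtain rfl : (fun i => ι (q₁ i)) = q := funext hq
  have hP : Par ι a₁ b₁ c₁ a b c := ⟨ha, hb, hc⟩
  have h2 : d₁ ^ 2 = a₁ := ι.injective (by rw [map_pow, h.sq, ha])
  have h3 : q₁ 0 * q₁ 1 * q₁ 2 = 1 := ι.injective (by rw [map_mul, map_mul, h.prod, map_one])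
  obtain ⟨M, -, hM⟩ := (idm_ep (b := b₁) (c := c₁) h2).exists_mp h3
  have h4 : ∀ γ ∈ Γ, ∀ γ₁ : Gl E, (∀ x, γ (ι x) = ι (γ₁ x)) → γ (ι d₁) = -ι d₁ →
      ∃ φ ∈ Φ, Semi γ φ ∧ ∀ x, φ (j4 ι x) = j4 ι ((M * stP γ₁ (p γ) : Perm (V4 a₁ b₁ c₁)) x) := by
    intro γ k1 γ₁ k2 k3
    obtain ⟨φ, k4, k5⟩ := h.tw γ k1 k3
    obtain ⟨M', ⟨_, _, s1⟩, hM'⟩ := (idm_ep (b := b) (c := c) h.sq).exists_mp
      (q := fun i => ι (q₁ i)) h.prod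
    refine ⟨φ, k4, ?_, fun x => by rw [k5, st4_j4 k2, mp_j4 hP, Perm.mul_apply, hM, stP_apply]⟩
    rw [show ⇑φ = M' ∘ st4 γ (p γ) from funext fun x => (k5 x).trans (hM' _).symm]
    exact Semi.lin_comp s1.semi semi_st4
  obtain ⟨Φ₁, h₁, hL, h5⟩ := h.dat.descend hE hP (fun γ k1 => by
      obtain ⟨γ₁, -, k2⟩ := hE.down γ k1
      rcases h.sgn k1 with k3 | k3
      · exact ⟨_, h.st γ k1 k3, semi_st4, stP γ₁ (p γ), st4_j4 k2 _⟩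
      · obtain ⟨φ, k4, k5, k6⟩ := h4 γ k1 γ₁ k2 k3
        exact ⟨φ, k4, k5, _, k6⟩)
    fun γ k1 k2 => ⟨_, h.st γ k1 (k2 _), semi_st4, fun x => by
      rw [stP_apply, (hΔ γ k2).2.1, st4_j4 (γ := 1) k2, st4_one]⟩
  obtain ⟨p₁, hp₁⟩ := h₁.exists_pm
  have hpp : ∀ γ₁ ∈ Γ₁, ∀ γ ∈ Γ, (∀ x, γ (ι x) = ι (γ₁ x)) → p γ = p₁ γ₁ :=
    fun γ₁ k1 γ k2 => hL.pm h₁ hP hp₁ h.pm k1 k2
  have h6 : ∀ {t : E}, Fx Γ (ι t) → Fx Γ₁ t := fun ht γ₁ k1 => by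
    obtain ⟨γ, k2, k3⟩ := hE.up γ₁ k1
    exact ι.injective (by rw [← k3, ht γ k2])
  refine ⟨E, inferInstance, inferInstance, ι, Γ₁, a₁, b₁, c₁, Φ₁, p₁, d₁, q₁, hE, hP, fun _ => rfl,
    ⟨⟨h₁, hp₁, h6 (ha ▸ h.fa), h6 (hb ▸ h.fb), h6 (hc ▸ h.fc), h2, h3, fun γ₁ k1 i => ?_,
      fun γ₁ k1 k2 => ?_, fun γ₁ k1 k2 => ?_⟩, fun i j => ?_, ?_⟩, hL.uiso4 hE hP h₁.ov,
    fun γ₁ k1 k2 k3 => ?_⟩
  · obtain ⟨γ, k3, k4⟩ := hE.up γ₁ k1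
    exact ι.injective (by rw [← k4, h.eqv γ k3, hpp γ₁ k1 γ k3 k4])
  · obtain ⟨γ, k3, k4⟩ := hE.up γ₁ k1
    exact (h5 _).2 ⟨_, h.st γ k3 (by rw [k4, k2]), fun x => by
      rw [stP_apply, stP_apply, hpp γ₁ k1 γ k3 k4, st4_j4 k4]⟩
  · obtain ⟨γ, k3, k4⟩ := hE.up γ₁ k1
    obtain ⟨φ, k5, -, k6⟩ := h4 γ k3 γ₁ k4 (by rw [k4, k2, map_neg])
    exact ⟨_, (h5 _).2 ⟨φ, k5, k6⟩, fun x => by
      rw [Perm.mul_apply, hM, stP_apply, hpp γ₁ k1 γ k3 k4]⟩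
  · obtain ⟨γ, k1, k2⟩ := h.trn i j
    obtain ⟨γ₁, k3, k4⟩ := hE.down γ k1
    exact ⟨γ₁, k3, by rw [← hpp γ₁ k3 γ k1 k4, k2]⟩
  · obtain ⟨γ, k1, k2, k5⟩ := h.sig
    obtain ⟨γ₁, k3, k4⟩ := hE.down γ k1
    exact ⟨γ₁, k3, ι.injective (by rw [← k4, k2, map_neg]), by rw [← hpp γ₁ k3 γ k1 k4, k5]⟩
  · obtain ⟨γ, k4, k5⟩ := hE.up γ₁ k1
    refine AlgEquiv.ext fun x => ι.injective ?_
    rw [← k5]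
    exact (hr _).1 ⟨x, rfl⟩ γ ⟨k4, (hpp γ₁ k1 γ k4 k5).trans k2, by rw [k5, k3]⟩

end Vale.Agent.P011N.Cl
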