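import Vale.Agent.P011N.Cl.D4.Ar
import Vale.Agent.P011.E6W.H196.Slot

/-!
The theorem for the trialitarian groups.
-/

namespace Vale.Agent.P011N.Cl

open Vale.Agent.P011.MPQ Vale.Agent.P011.D4 Vale.Agent.P011.D4.Oct Equiv Module

variable {k F : Type} [Field k] [NumberField k] [Field F] [NumberField F] {a b c : Fˣ}
  {Γ : Subgroup (Gl F)} {Φ : Subgroup (Perm (V4 a b c))} {p : Gl F → Perm (Fin 3)} {d : F}
  {q : Fin 3 → F} {κ : k →+* F}

theorem NFT.exists_slot (h : NFT Γ Φ p d q) (hκ : ∀ x, x ∈ Set.range κ ↔ Fx Γ x) {a₀ b₀ : k}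
    (ha : κ a₀ = a) (hb : κ b₀ = b) (hab : ∀ P : k →+* ℝ, P a₀ < 0 → 0 < P b₀ → PosP κ q P) :
    ∃ (u : k) (b' : Fˣ) (w : Qt a b'), (b' : F) = q 0 * b ∧ (∀ γ ∈ h.pm.sb, jQ γ w = w) ∧
      w.re = 0 ∧ nrd w = -κ u ∧ ¬ IsSquare (κ u) ∧ ∀ P : k →+* ℝ, P u < 0 ↔ P a₀ < 0 ∧ P b₀ < 0 := by
  obtain ⟨L, _, _, ι, hι⟩ := exists_fixed h.pm.sb
  have h3 : ∀ x, Fx Γ (κ x) := fun x => (hκ _).1 ⟨x, rfl⟩
  choose r hr using fun x => (hι (κ x)).2 ((h3 x).mono h.pm.sb_le)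
  letI : Algebra k L := RingHom.toAlgebra
    { toFun := r
      map_one' := ι.injective (by rw [hr, map_one, map_one])
      map_mul' := fun s t => ι.injective (by rw [hr, map_mul, map_mul, hr, hr])
      map_zero' := ι.injective (by rw [hr, map_zero, map_zero])
      map_add' := fun s t => ι.injective (by rw [hr, map_add, map_add, hr, hr]) }
  letI := κ.toAlgebra
  have h1 : finrank k L = 3 := by
    have k1 := finrank_fixed hκ
    have k2 := finrank_fixed hι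
    have k3 := (h.pm.sb.subgroupOf Γ).card_mul_index
    rw [Nat.card_congr (Subgroup.subgroupOfEquivOfLe h.pm.sb_le).toEquiv, ← Subgroup.relIndex,
      h.pm.relIndex_sb h.trn] at k3
    rw [← Module.finrank_mul_finrank ℚ k L, ← k1, ← k3, mul_assoc, mul_comm _ 3] at k2
    exact mul_right_cancel₀ Nat.card_pos.ne' (mul_left_cancel₀ Module.finrank_pos.ne' k2)
  have h5 : Fx h.pm.sb (q 0) := fun γ hγ => by rw [h.eqv γ hγ.1, hγ.2]
  obtain ⟨a₁, ha₁⟩ := exists_unit ((hκ _).2 h.fa)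
  obtain ⟨b₁, hb₁⟩ := exists_unit ((hκ _).2 h.fb)
  obtain rfl := κ.injective (ha₁.trans ha.symm)
  obtain rfl := κ.injective (hb₁.trans hb.symm)
  obtain ⟨a₂, ha₂⟩ := exists_unit ((hι _).2 (h.fa.mono h.pm.sb_le))
  obtain ⟨b₂, hb₂⟩ := exists_unit (a := Units.mk0 _ (ne_of_prod h.prod 0) * b)
    ((hι _).2 (h5.mul (h.fb.mono h.pm.sb_le)))
  obtain ⟨u, -, ⟨w, w1, w2⟩, u1, u2⟩ := Vale.Agent.P011.E6W.H196.exists_slot (M := F) h1 a₁ b₁ a₂ b₂
    fun P k1 k2 => by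
      obtain ⟨v, v1, v2⟩ := exists_rlG (fun x => (hι x).2) P
      have k3 : ∀ x, v (κ x) = (P.comp (algebraMap k L)) x := fun x => by
        rw [← hr, v2]
        rfl
      have k4 : P (algebraMap k L a₁) < 0 := by
        rwa [show algebraMap k L a₁ = a₂ from ι.injective ((hr _).trans (ha.trans ha₂.symm))]
      refine ⟨k4, lt_of_le_of_ne (not_lt.1 fun k5 => ?_)
        ((map_ne_zero (P.comp (algebraMap k L))).2 b₁.ne_zero)⟩
      have k6 := hab _ k4 k5 v k3 0 (v1 _ h5)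
      have k7 := congrArg Complex.re (v2 b₂)
      rw [hb₂, Units.val_mul, Units.val_mk0, map_mul, ← hb, k3, Complex.mul_re, v1 _ h5,
        Complex.ofReal_re, Complex.ofReal_re, zero_mul, sub_zero] at k7
      exact lt_asymm k2 (k7 ▸ mul_pos k6 k5)
  have h6 : ∀ γ ∈ h.pm.sb, ∀ s, γ (ι s) = ι s := fun γ hγ s => (hι _).1 ⟨s, rfl⟩ γ hγ
  refine ⟨u, Units.mk0 _ (ne_of_prod h.prod 0) * b, jQ ι w, rfl, fun γ hγ => by simp only [jQ, h6 γ hγ], by rw [jQ, w1, map_zero], ?_,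
    fun ⟨x, hx⟩ => u2 x hx.symm, u1⟩
  have h7 := congrArg (·.re) (q_mul_star w)
  have h8 := congrArg (·.re) w2
  rw [show star w = -w by ext <;> simp [w1], mul_neg, w2] at h7
  simp only [QuaternionAlgebra.re_neg, QuaternionAlgebra.re_smul, QuaternionAlgebra.re_one,
    smul_eq_mul, mul_one] at h7
  rw [nrd_jQ ha₂ hb₂, ← h7, map_neg]
  exact congrArg _ (hr _)

theorem simp_nft (h3 : ClD3 Simp) (h6 : ClD6 Simp) (n : ℕ) :
    ∀ (F : Type) [Field F] [NumberField F] (Γ : Subgroup (Gl F)) (κ : k →+* F) (a b c : Fˣ)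
      (Φ : Subgroup (Perm (V4 a b c))) (p : Gl F → Perm (Fin 3)) (d : F) (q : Fin 3 → F) (a₀ : k),
      (∀ x, x ∈ Set.range κ ↔ Fx Γ x) → κ a₀ = a → NFT Γ Φ p d q → Ani (Pts (S4 a b c) Φ) →
      {P : k →+* ℝ | P a₀ < 0}.ncard < n → Simp (Pts (S4 a b c) Φ) := by
  induction n with
  | zero => exact fun _ _ _ _ _ _ _ _ _ _ _ _ _ _ _ _ _ h => absurd h (Nat.not_lt_zero _)
  | succ n ih =>
    intro F _ _ Γ κ a b c Φ p d q a₀ hκ ha h hA hn
    obtain ⟨b, c, Φ, b₀, c₀, h, hU, hb, hc, h1⟩ := h.exists_b hκ ha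
    replace hA := hU.symm.ani hA
    refine hU.symm.simp ?_
    clear hU
    have f1 : ∀ x, Fx Γ (κ x) := fun x => (hκ _).1 ⟨x, rfl⟩
    have b0 : ∀ P : k →+* ℝ, P b₀ ≠ 0 := fun P => (map_ne_zero P).2 fun h0 =>
      b.ne_zero (by rw [← hb, h0, map_zero])
    have c0 : ∀ P : k →+* ℝ, P c₀ ≠ 0 := fun P => (map_ne_zero P).2 fun h0 =>
      c.ne_zero (by rw [← hc, h0, map_zero])
    by_cases h2 : ∀ P : k →+* ℝ, P a₀ < 0 → P b₀ < 0
    · by_cases h4 : ∃ P : k →+* ℝ, P a₀ < 0 ∧ PosP κ q P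
      · obtain ⟨c', Φ', m, h', hU, k1, k2⟩ := h.exists_c hκ ha hb h2 {P | P a₀ < 0 ∧ 0 < P c₀}
          fun P k1 k2 => lt_asymm k1.2 ((h1 P k1.1).2 (h2 P k1.1) k2)
        obtain ⟨P, k3, k4⟩ := h4
        obtain ⟨w, w1, w2⟩ := exists_rlG (fun x => (hκ x).2) P
        refine hU.symm.simp (h'.simp_def h3 h6 (fun v v1 v2 => ?_)
          ⟨w, w1, by rwa [← ha, w2], k4 w w2⟩)
        obtain ⟨R, hR⟩ := exists_place f1 v1
        rw [← ha, hR] at v2
        rw [k1, ← hb, ← hc, ← map_mul, hR, hR, map_mul]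
        refine ⟨h2 R v2, ?_⟩
        rcases (c0 R).lt_or_gt with k5 | k5
        · exact mul_neg_of_neg_of_pos k5 ((k2 R).2 fun k6 => lt_asymm k5 k6.2)
        · exact mul_neg_of_pos_of_neg k5 ((k2 R).1 ⟨v2, k5⟩)
      · obtain ⟨c', Φ', m, h', hU, k1, k2⟩ := h.exists_c hκ ha hb h2 {P | P a₀ < 0 ∧ P c₀ < 0}
          fun P k1 k2 => h4 ⟨P, k1.1, k2⟩
        obtain ⟨y, y1, y2⟩ := exists_nrd h'.fa h'.fb h'.fc fun v v1 v2 _ => by
          obtain ⟨R, hR⟩ := exists_place f1 v1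
          rw [← ha, hR] at v2
          rw [k1, ← hc, ← map_mul, hR, map_mul]
          rcases (c0 R).lt_or_gt with k5 | k5
          · exact mul_pos_of_neg_of_neg k5 ((k2 R).1 ⟨v2, k5⟩)
          · exact mul_pos k5 ((k2 R).2 fun k6 => lt_asymm k5 k6.2)
        have k3 : Fix Γ (fun γ => jO γ) (⟨0, (c' : F)⁻¹ • y⟩ : Oct a b c') := fun γ hγ => by
          ext1
          · apply QuaternionAlgebra.ext <;> exact map_zero γ
          · exact (jQ_smul γ _ _).trans (by rw [h'.fc.inv γ hγ, y1 γ hγ])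
        obtain ⟨c'', l, k4, k5, k6⟩ := (oact_jO h'.fa h'.fb h'.fc).exists_third (i := gi) (α := a)
          (β := 1) (fun γ _ => by apply ext8 <;> simp [jO, jQ, gi]) k3
          ⟨by simp [bil_eq, gi], by simp [bil_eq], by simp [bil_eq, gi],
            by simp [Oct.norm, nrd, gi], by
              rw [Oct.norm, q_nrd_smul, y2]
              simp [nrd]
              field_simp⟩
        obtain ⟨ψ, s1, k7⟩ := h'.frame k3 k5 fx_one k4 k6
        exact absurd ((uiso_tr4 s1 _).symm.ani (hU.symm.ani hA)) k7.not_ani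
    · obtain ⟨u, b', w, w1, w2, w3, w4, u1, u2⟩ := h.exists_slot hκ ha hb fun P k1 => (h1 P k1).1
      obtain ⟨F', _, _, ι, Γ', e, hE, he⟩ := exists_sqrt Γ (κ u)
      obtain ⟨Φ', p', h', hU, hp⟩ := h.lift (a' := Units.map ι a) (b' := Units.map ι b)
        (c' := Units.map ι c) hE ⟨rfl, rfl, rfl⟩
      obtain ⟨σ, σ1, σ2, σ3⟩ := hE.exists_neg u1 he
      have σ4 : p' σ = 1 := (hp 1 Γ.one_mem σ σ1 σ2).trans h.pm.one
      have e1 : ∀ γ ∈ Γ', γ e = e ∨ γ e = -e := fun γ hγ => sgn_of_sq he (hE.fx (f1 u)) hγ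
      obtain ⟨I, i1, i2, i3, i4, i5⟩ := h'.exists_Q1 (h'.trn 0) (b' := Units.map ι b')
        (by simp [w1]) (w := jQ ι w) fun γ' k1 k2 => by
          obtain ⟨γ, k3, k4⟩ := hE.down γ' k1
          have k5 := w2 γ ⟨k3, by rw [← hp γ k3 γ' k1 k4, k2]⟩
          conv_rhs => rw [← k5]
          simp only [jQ, k4]
      obtain ⟨a', b'', c', ψ, q', ⟨_, _, s1⟩, k1⟩ := h'.hex i1
        (i4.ext (t := fun _ => 0) (fun γ _ _ => map_zero γ) h'.trn
          (i2.trans (by rw [jQ, w3, map_zero]))) (e := e)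
        (by
          rintro rfl
          rw [zero_pow two_ne_zero, eq_comm, map_eq_zero] at he
          exact u1 (he ▸ IsSquare.zero))
        (i5.ext (t := fun _ => -e ^ 2) (fun γ hγ _ => by rw [he, map_neg, hE.fx (f1 u) γ hγ])
          h'.trn (i3.trans (by rw [nrd_jQ rfl rfl, w4, he, map_neg])))
        e1 (trans_stb h'.pm e1 σ1 σ3 σ4 h'.trn) σ1 σ3
      refine (hU.trans (uiso_tr4 s1 _).symm).simp (ih F' Γ' (ι.comp κ) a' b'' c' _ p' e q' u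
        (fun x => ⟨?_, fun hx => ?_⟩) (he.symm.trans k1.sq) ⟨k1, h'.trn, σ, σ1, σ3, σ4⟩
        ((hU.trans (uiso_tr4 s1 _).symm).ani hA) (lt_of_lt_of_le (Set.ncard_lt_ncard
          ⟨fun P k2 => ((u2 P).1 k2).1, fun k2 => h2 fun P k3 => ((u2 P).1 (k2 k3)).2⟩)
          (Nat.lt_succ_iff.1 hn)))
      · rintro ⟨y, rfl⟩
        exact hE.fx (f1 y)
      · obtain ⟨y, k2, rfl⟩ := hE.of_fx hx
        obtain ⟨z, rfl⟩ := (hκ y).2 k2
        exact ⟨z, rfl⟩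

/-- **The trialitarian groups.** -/
theorem thm4 (h3 : ClD3 Simp) (h6 : ClD6 Simp) (hK : K2Stmt) (hR : R1Stmt) : Thm4 := by
  intro F _ _ Γ Φ h hT hA
  obtain ⟨F', _, _, Γ', a, b, c, Φ', p, d, q, h', hU⟩ := exists_nft hK hR h hT
  obtain ⟨k, _, _, κ, hκ⟩ := exists_fixed Γ'
  obtain ⟨a₀, ha⟩ := (hκ _).2 h'.fa
  exact hU.simp (simp_nft h3 h6 _ F' Γ' κ a b c Φ' p d q a₀ hκ ha h' (hU.ani hA) (Nat.lt_succ_self _))

end Vale.Agent.P011N.Cl
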