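import Vale.Agent.P011N.Cl.D4.Fin
import Vale.Agent.P011N.Cl.D4.Lift

/-!
The theorem for the normal forms which are definite at the real places.
-/

namespace Vale.Agent.P011N.Cl

open Vale.Agent.P011.MPQ Vale.Agent.P011.D4 Vale.Agent.P011.D4.Oct Equiv Module
open Vale.Agent.P011.H900 (Oc om oc ap me Tri Twi Swp grp Aut Dvn Rl)

variable {F : Type} [Field F] [NumberField F] {a b c : Fˣ} {Γ : Subgroup (Gl F)}
  {Φ : Subgroup (Perm (V4 a b c))} {p : Gl F → Perm (Fin 3)} {d : F} {q : Fin 3 → F}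

theorem norm_pos (ha : Fx Γ (a : F)) (hb : Fx Γ (b : F)) (hc : Fx Γ (c : F)) {w : F →+* ℂ}
    (hw : RlG Γ w) (h1 : (w a).re < 0) (h2 : (w b).re < 0) (h3 : (w c).re < 0) {x : Oct a b c}
    (hx : ∀ γ ∈ Γ, jO γ x = x) (h0 : x ≠ 0) : 0 < (w (norm x)).re := by
  have k1 : ∀ t, Fx Γ t → w t = ((w t).re : ℝ) := fun t ht => Complex.ext rfl (hw t ht)
  have k2 : ∀ m, Fx Γ (co8 a b c x m) := fun m γ hγ =>
    (co8_jO γ x m).symm.trans (congrArg (co8 a b c · m) (hx γ hγ))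
  have k3 : (w (norm x)).re = ∑ m, ![1, -(w a).re, -(w b).re, (w a).re * (w b).re, -(w c).re,
      (w a).re * (w c).re, (w b).re * (w c).re, -(w c).re * ((w a).re * (w b).re)] m *
      (w (co8 a b c x m)).re ^ 2 := by
    have k4 : norm x = co8 a b c x 0 ^ 2 - a * co8 a b c x 1 ^ 2 - b * co8 a b c x 2 ^ 2 +
        a * b * co8 a b c x 3 ^ 2 - c * (co8 a b c x 4 ^ 2 - a * co8 a b c x 5 ^ 2 -
        b * co8 a b c x 6 ^ 2 + a * b * co8 a b c x 7 ^ 2) := rfl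
    rw [k4, Fin.sum_univ_eight]
    simp only [map_add, map_sub, map_mul, map_pow]
    rw [k1 _ ha, k1 _ hb, k1 _ hc, k1 _ (k2 0), k1 _ (k2 1), k1 _ (k2 2), k1 _ (k2 3), k1 _ (k2 4),
      k1 _ (k2 5), k1 _ (k2 6), k1 _ (k2 7)]
    norm_cast
    simp
    ring
  have k4 : ∀ m : Fin 8, 0 < ![1, -(w a).re, -(w b).re, (w a).re * (w b).re, -(w c).re,
      (w a).re * (w c).re, (w b).re * (w c).re, -(w c).re * ((w a).re * (w b).re)] m := fun m => by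
    fin_cases m
    exacts [one_pos, neg_pos.2 h1, neg_pos.2 h2, mul_pos_of_neg_of_neg h1 h2, neg_pos.2 h3,
      mul_pos_of_neg_of_neg h1 h3, mul_pos_of_neg_of_neg h2 h3,
      mul_pos (neg_pos.2 h3) (mul_pos_of_neg_of_neg h1 h2)]
  obtain ⟨m, hm⟩ := Function.ne_iff.1 ((map_ne_zero_iff _ (co8 a b c).injective).2 h0)
  rw [k3]
  refine Finset.sum_pos' (fun m _ => mul_nonneg (k4 m).le (sq_nonneg _))
    ⟨m, Finset.mem_univ _, mul_pos (k4 m) (sq_pos_of_ne_zero fun h => hm ?_)⟩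
  exact (map_eq_zero w).1 (by rw [k1 _ (k2 m), h, Complex.ofReal_zero])

theorem aut_of {n : ℕ} {r : Gl F} (h1 : r ^ n = 1) (h2 : r ≠ 1) : Aut n r :=
  ⟨fun x y => ⟨map_add r x y, map_mul r x y⟩, by rw [← AlgEquiv.coe_pow, h1]; rfl,
    fun h => h2 (AlgEquiv.ext fun x => congrFun h x)⟩

theorem simp_of_grp {P : (Oc (a : F) b → Oc (a : F) b) → Prop} {r : Gl F}
    (hr : stP r rot3 ∈ Φ) (h1 : ∀ g : S4 a b c, g.1 ∈ Pts (S4 a b c) Φ → P (c0 g))
    (h2 : ∀ f : Perm (Oc (a : F) b), P f → ∃ g : S4 a b c, c0 g = f ∧ g.1 ∈ Pts (S4 a b c) Φ)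
    (h : Simp (grp P)) : Simp (Pts (S4 a b c) Φ) := by
  let e : Pts (S4 a b c) Φ →* Perm (Oc (a : F) b) := c0.comp (Subgroup.inclusion inf_le_left)
  have h3 : Function.Injective e := (injective_iff_map_eq_one e).2 fun g hg =>
    Subtype.ext (Equiv.ext (ext_rot (r := r) (v := id) (stP r rot3)
      (fun x => (DFunLike.congr_fun (g.2.2 _ hr) x).symm) (fun _ => rfl) fun x =>
        toPair.injective ((c0_apply ⟨g.1, g.2.1⟩ x).symm.trans (DFunLike.congr_fun hg _))))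
  have h4 : e.range = grp P := le_antisymm
    (by rintro _ ⟨g, rfl⟩; exact Subgroup.subset_closure (h1 _ g.2))
    ((Subgroup.closure_le _).2 fun f hf => by
      obtain ⟨g, k1, k2⟩ := h2 f hf
      exact ⟨⟨g.1, k2⟩, k1⟩)
  exact simp_of_equiv ((MonoidHom.ofInjective h3).trans (MulEquiv.subgroupCongr h4)) h

theorem NFT.simp_faithful (h3 : ClD3 Simp) (h6 : ClD6 Simp) (h : NFT Γ Φ p d q)
    (hf : ∀ γ ∈ Γ, p γ = 1 → γ d = d → γ = 1)
    (hdef : ∀ w, RlG Γ w → (w a).re < 0 → (w b).re < 0 ∧ (w c).re < 0)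
    (hpos : ∃ w, RlG Γ w ∧ (w a).re < 0 ∧ ∀ i, (w (q i)).im = 0 → 0 < (w (q i)).re) :
    Simp (Pts (S4 a b c) Φ) := by
  obtain ⟨s, s1, s2, s3⟩ := h.sig
  have d0 := ne_of_sq h.sq
  have htd := trans_stb h.pm (fun _ => h.sgn) s1 s2 s3 h.trn
  have pm := h.pm.mul
  have e1 : ∀ γ ∈ Γ, ∀ δ ∈ Γ, p γ = p δ → γ d = δ d → γ = δ := fun γ k1 δ k2 k3 k4 =>
    (inv_mul_eq_one.1 (hf _ (Γ.mul_mem (Γ.inv_mem k2) k1)
      (by rw [pm _ (Γ.inv_mem k2) _ k1, h.pm.inv k2, k3, inv_mul_cancel])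
      (δ.symm_apply_eq.2 k4))).symm
  obtain ⟨r, r1, r2, r3⟩ : ∃ r ∈ Γ, r d = d ∧ p r = rot3 := by
    obtain ⟨γ, k1, k2, k3⟩ := htd 0 2
    obtain ⟨δ, k4, k5, k6⟩ := htd 0 1
    have k7 : ∀ π π' : Perm (Fin 3), π 0 = 2 → π' 0 = 1 →
        π = rot3 ∨ π' * π' = rot3 ∨ π' * π = rot3 := by decide
    rcases k7 _ _ k3 k6 with k8 | k8 | k8
    · exact ⟨γ, k1, k2, k8⟩
    · exact ⟨δ * δ, Γ.mul_mem k4 k4, by rw [AlgEquiv.mul_apply, k5, k5], by rwa [pm _ k4 _ k4]⟩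
    · exact ⟨δ * γ, Γ.mul_mem k4 k1, by rw [AlgEquiv.mul_apply, k2, k5], by rwa [pm _ k4 _ k1]⟩
  have rr := Γ.mul_mem r1 r1
  have r4 : r * r * r = 1 := hf _ (Γ.mul_mem rr r1)
    (by rw [pm _ rr _ r1, pm _ r1 _ r1, r3]; decide) (by simp [r2])
  have s4 : s * s = 1 := hf _ (Γ.mul_mem s1 s1) (by rw [pm _ s1 _ s1, s3, mul_one]) (by simp [s2])
  have rs : r * s = s * r := e1 _ (Γ.mul_mem r1 s1) _ (Γ.mul_mem s1 r1)
    (by rw [pm _ r1 _ s1, pm _ s1 _ r1, s3, mul_one, one_mul]) (by simp [r2, s2])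
  have q0 : r (q 1) = q 0 := by rw [h.eqv r r1, r3]; rfl
  have q2 : r (q 0) = q 2 := by rw [h.eqv r r1, r3]; rfl
  have hR : stP r rot3 ∈ Φ := r3 ▸ h.st r r1 r2
  have gen : ∀ H : Subgroup (Gl F), r ∈ H → s ∈ H → (∀ γ ∈ Γ, Perm.sign (p γ) ≠ 1 →
      ∃ t ∈ H, t ∈ Γ ∧ t d = d ∧ p t = swap 1 2) → Γ ≤ H := by
    intro H k1 k2 k3
    have k4 : ∀ γ ∈ Γ, γ d = d → Perm.sign (p γ) = 1 → γ ∈ H := fun γ k4 k5 k6 => by
      have k7 : ∀ π : Perm (Fin 3), Perm.sign π = 1 → π = 1 ∨ π = rot3 ∨ π = rot3 * rot3 := by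
        decide
      rcases k7 _ k6 with k8 | k8 | k8
      · exact hf γ k4 k8 k5 ▸ H.one_mem
      · exact e1 γ k4 r r1 (k8.trans r3.symm) (k5.trans r2.symm) ▸ k1
      · exact e1 γ k4 _ rr (by rw [pm _ r1 _ r1, r3, k8]) (by simp [r2, k5]) ▸ H.mul_mem k1 k1
    have k5 : ∀ γ ∈ Γ, γ d = d → γ ∈ H := fun γ k5 k6 => by
      by_cases k7 : Perm.sign (p γ) = 1
      · exact k4 γ k5 k6 k7
      · obtain ⟨t, t1, t2, t3, t4⟩ := k3 γ k5 k7
        refine (H.mul_mem_cancel_left t1).1 (k4 _ (Γ.mul_mem t2 k5) (by simp [k6, t3]) ?_)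
        rw [pm _ t2 _ k5, t4, map_mul, (Int.units_eq_one_or _).resolve_left k7]
        decide
    intro γ k6
    rcases h.sgn k6 with k7 | k7
    · exact k5 γ k6 k7
    · exact (H.mul_mem_cancel_left k2).1 (k5 _ (Γ.mul_mem s1 k6) (by simp [k7, s2]))
  have dat : ∀ l : List (Gl F), (∀ t ∈ l, t ∈ Γ) →
      (∀ H : Subgroup (Gl F), (∀ t ∈ l, t ∈ H) → Γ ≤ H) →
      Vale.Agent.P011.H900.Dat (l.map (⇑)) r s a b c d (q 1) := by
    intro l l1 l2
    have k1 : ∀ x : F, (∀ t ∈ l.map (⇑), t x = x) ↔ Fx Γ x := fun x =>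
      ⟨fun k γ hγ => l2 (MulAction.stabilizer (Gl F) x)
        (fun t ht => k _ (List.mem_map_of_mem ht)) hγ, fun k t ht => by
        obtain ⟨u, hu, rfl⟩ := List.mem_map.1 ht
        exact k u (l1 u hu)⟩
    have k2 : ∀ w, Rl (l.map (⇑)) w ↔ RlG Γ w := fun w =>
      forall_congr' fun x => imp_congr_left (k1 x)
    obtain ⟨w, w1, w2, w3⟩ := hpos
    refine ⟨aut_of (by rw [pow_three', r4]) fun k => ?_, aut_of (by rw [pow_two, s4]) fun k => ?_,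
      fun x => DFunLike.congr_fun rs x, ⟨fun t ht => ⟨(k1 _).2 h.fa t ht, (k1 _).2 h.fb t ht,
        (k1 _).2 h.fc t ht⟩, fun x k3 k4 => ?_⟩, h.sq, r2, s2, by rw [h.eqv s s1, s3]; rfl, ?_,
      fun w k3 => hdef w ((k2 w).1 k3), w, (k2 w).2 w1, w2, fun j => ?_⟩
    · rw [k, h.pm.one] at r3
      exact absurd r3 (by decide)
    · rw [k] at s2
      exact ne_neg d0 s2.symm
    · obtain ⟨x, rfl⟩ := (toPair (c := c)).surjective x
      by_contra k5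
      have k6 := norm_pos h.fa h.fb h.fc w1 w2 (hdef w w1 w2).1 (hdef w w1 w2).2 (x := x)
        (fun γ hγ => (co8 a b c).injective (funext fun m => (co8_jO γ x m).trans
          ((k1 _).1 (fun t ht => (co8_jO t x m).symm.trans
            (congrArg (co8 a b c · m) (toPair.injective (k3 t ht)))) γ hγ)))
        fun k7 => k5 (by rw [k7, map_zero])
      have k7 : norm x = 0 := by
        rw [norm_eq_dot]
        exact k4
      rw [k7, map_zero] at k6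
      exact lt_irrefl _ k6
    · rw [q0, q2]
      linear_combination h.prod
    · obtain ⟨i, hi⟩ : ∃ i, r^[j] (q 1) = q i := by
        induction j with
        | zero => exact ⟨1, rfl⟩
        | succ j ih =>
          obtain ⟨i, hi⟩ := ih
          exact ⟨_, by rw [Function.iterate_succ_apply', hi, h.eqv r r1]⟩
      rw [hi]
      exact w3 i
  have mem : ∀ g ∈ S4 a b c, ∀ l : List (Gl F),
      (∀ H : Subgroup (Gl F), (∀ t ∈ l, t ∈ H) → Γ ≤ H) →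
      (∀ t ∈ l, ∃ φ ∈ Φ, Semi t φ ∧ φ * g = g * φ) → g ∈ Pts (S4 a b c) Φ := by
    intro g hg l l1 l2
    let H : Subgroup (Gl F) :=
      { carrier := {t | ∃ φ ∈ Φ, Semi t φ ∧ Commute φ g}
        mul_mem' := by
          rintro t u ⟨φ, k1, k2, k3⟩ ⟨ψ, k4, k5, k6⟩
          exact ⟨_, Φ.mul_mem k1 k4, k2.mul k5, k3.mul_left k6⟩
        one_mem' := ⟨1, Φ.one_mem, semi_id, Commute.one_left g⟩
        inv_mem' := by
          rintro t ⟨φ, k1, k2, k3⟩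
          exact ⟨_, Φ.inv_mem k1, k2.inv, k3.inv_left⟩ }
    refine ⟨hg, fun φ hφ => ?_⟩
    obtain ⟨γ, k1, k2⟩ := h.dat.ov.semi φ hφ
    obtain ⟨ψ, k3, k4, k5⟩ := l1 H l2 k1
    obtain ⟨z, hz, rfl⟩ := h.dat.exists_Z4 k3 hφ k4 k2
    exact (Commute.mul_left (comm_Z4_S4 hz hg) k5).eq
  obtain ⟨σ, σ1, σ2⟩ := h.tw s s1 s2
  rw [s3] at σ2
  have σ3 : Semi s σ := by
    obtain ⟨M, ⟨_, _, m1⟩, hM⟩ := (idm_ep (b := b) (c := c) h.sq).exists_mp h.prod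
    rw [show ⇑σ = M ∘ st4 s 1 from funext fun x => (σ2 x).trans (hM _).symm]
    exact Semi.lin_comp m1.semi semi_st4
  have σ4 : ∀ x, σ x 0 = q 2 • (el (ep d) (q 1) 1 * jO s (x 0) * el (ep d) (q 1 * r (q 1)) 1) :=
    fun x => by
      rw [σ2, mp, ← mul_smul_comm, smul_el, q0, mul_one,
        show q 2 * (q 1 * q 0) = 1 by linear_combination h.prod]
      rfl
  have σ5 : ∀ x, σ (stP r rot3 x) = st4 r rot3 (σ x) := fun x => by
    rw [σ2, σ2, (au_st4 (h.par r1)).map_mp (idm_ep h.sq) (r3 ▸ h.eqv r r1), jO_ep, r2, stP_apply,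
      ← st4_mul, ← st4_mul, rs, mul_one, one_mul]
  have tw : ∀ g : S4 a b c, stP r rot3 * g.1 = g.1 * stP r rot3 →
      (Twi (c : F) r s d (q 1) (c0 g) ↔ σ * g.1 = g.1 * σ) := fun g hg => by
    have k0 := sim4_one.2 (mem_S4.1 g.2)
    have k1 : ∀ x, g.1 (stP r rot3 x) = st4 r rot3 (g.1 x) := fun x =>
      (DFunLike.congr_fun hg x).symm
    have k2 : ∀ x, g.1 x 0 = cp g.1 1 0 (x 0) := fun x => k0.apply x 0
    refine (twi_iff (g := cp g.1 1 0) fun _ => rfl).trans ⟨fun k3 => Equiv.ext (ext_rot (r := r)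
      (stP r rot3) (fun x => ?_) (fun x => ?_) fun x => ?_), fun k3 u => ?_⟩
    · rw [Perm.mul_apply, k1, ← stP_apply, σ5, Perm.mul_apply]
    · rw [Perm.mul_apply, σ5, ← stP_apply, k1, Perm.mul_apply]
    · rw [Perm.mul_apply, Perm.mul_apply, σ4, k2, k2, σ4, (k0.cp_semi 0).smul, k3]
      rfl
    · have k4 := congrFun (DFunLike.congr_fun k3 fun _ => u) 0
      rw [Perm.mul_apply, Perm.mul_apply, σ4, k2, k2, σ4, (k0.cp_semi 0).smul] at k4
      exact smul_right_injective _ (ne_of_prod h.prod 2) k4.symm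
  by_cases hs : ∀ γ ∈ Γ, Perm.sign (p γ) = 1
  · have l1 : ∀ H : Subgroup (Gl F), (∀ t ∈ [r, s], t ∈ H) → Γ ≤ H := fun H k =>
      gen H (k r (by simp)) (k s (by simp)) fun γ k1 k2 => absurd (hs γ k1) k2
    refine simp_of_grp hR (fun g hg => ⟨tri_c0 g (hg.2 _ hR), (tw g (hg.2 _ hR)).2 (hg.2 _ σ1)⟩)
      (fun f hf => ?_) (h3 F r s a b c d (q 1) (dat [r, s] (by simp [r1, s1]) l1))
    obtain ⟨g, rfl, k1⟩ := exists_c0 (h.par r1) r4 hf.1
    refine ⟨g, rfl, mem _ g.2 _ l1 ?_⟩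
    simp only [List.mem_cons, List.not_mem_nil, or_false, forall_eq_or_imp, forall_eq]
    exact ⟨⟨_, hR, semi_st4 (π := rot3), k1⟩, σ, σ1, σ3, (tw g k1).1 hf.2⟩
  · push Not at hs
    obtain ⟨t, t1, t2, t3⟩ : ∃ t ∈ Γ, t d = d ∧ p t = swap 1 2 := by
      obtain ⟨γ, k1, k2⟩ := hs
      obtain ⟨δ, k3, k4, k5⟩ : ∃ δ ∈ Γ, δ d = d ∧ p δ = p γ := by
        rcases h.sgn k1 with k3 | k3
        · exact ⟨γ, k1, k3, rfl⟩
        · exact ⟨s * γ, Γ.mul_mem s1 k1, by simp [k3, s2], by rw [pm _ s1 _ k1, s3, one_mul]⟩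
      have k7 : ∀ π : Perm (Fin 3), Perm.sign π ≠ 1 →
          π = swap 1 2 ∨ rot3 * π = swap 1 2 ∨ rot3 * rot3 * π = swap 1 2 := by decide
      rcases k7 _ k2 with k8 | k8 | k8
      · exact ⟨δ, k3, k4, k5.trans k8⟩
      · exact ⟨r * δ, Γ.mul_mem r1 k3, by simp [k4, r2], by rw [pm _ r1 _ k3, r3, k5, k8]⟩
      · exact ⟨r * r * δ, Γ.mul_mem rr k3, by simp [k4, r2],
          by rw [pm _ rr _ k3, pm _ r1 _ r1, r3, k5, k8]⟩
    have l1 : ∀ H : Subgroup (Gl F), (∀ u ∈ [r, s, t], u ∈ H) → Γ ≤ H := fun H k =>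
      gen H (k r (by simp)) (k s (by simp)) fun _ _ _ => ⟨t, k t (by simp), t1, t2, t3⟩
    have hT : stP t (swap 1 2) ∈ Φ := t3 ▸ h.st t t1 t2
    have rt : r * (t * r) = t := e1 _ (Γ.mul_mem r1 (Γ.mul_mem t1 r1)) _ t1
      (by rw [pm _ r1 _ (Γ.mul_mem t1 r1), pm _ t1 _ r1, r3, t3]; decide) (by simp [r2, t2])
    have t4 : ∀ x : V4 a b c, stP t (swap 1 2) x 0 = jO t (star (x 0)) := fun x => by
      rw [jO_star, stP_apply, st4, if_neg (by decide)]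
      rfl
    have t5 : (stP r rot3 * (stP t (swap 1 2) * stP r rot3) : Perm (V4 a b c)) =
        stP t (swap 1 2) := by
      rw [← stP_mul, ← stP_mul, rt]
      congr 1
      decide
    have sw : ∀ g : S4 a b c, stP r rot3 * g.1 = g.1 * stP r rot3 →
        (Swp t (c0 g) ↔ stP t (swap 1 2) * g.1 = g.1 * stP t (swap 1 2)) := fun g hg => by
      have k0 := sim4_one.2 (mem_S4.1 g.2)
      have k2 : ∀ x, g.1 x 0 = cp g.1 1 0 (x 0) := fun x => k0.apply x 0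
      refine (swp_iff (g := cp g.1 1 0) fun _ => rfl).trans ⟨fun k3 => Equiv.ext (ext_rot (r := r)
        (stP r rot3)⁻¹ (fun x => ?_) (fun x => ?_) fun x => ?_), fun k3 u => ?_⟩
      · rw [← stP_apply, ← Perm.mul_apply, ← Perm.mul_apply, mul_assoc,
          ← (Commute.inv_left hg).eq, ← mul_assoc, ← mul_assoc]
        nth_rewrite 1 [← t5]
        simp only [mul_assoc, mul_inv_cancel_left]
      · rw [← stP_apply, ← Perm.mul_apply, ← Perm.mul_apply, ← mul_assoc, hg]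
        nth_rewrite 1 [← t5]
        simp only [mul_assoc, mul_inv_cancel, mul_one]
      · rw [Perm.mul_apply, Perm.mul_apply, t4, k2, k2, t4, k3]
      · have k4 := congrFun (DFunLike.congr_fun k3 fun _ => u) 0
        rw [Perm.mul_apply, Perm.mul_apply, t4, k2, k2, t4] at k4
        exact k4.symm
    refine simp_of_grp hR (fun g hg => ⟨tri_c0 g (hg.2 _ hR), (tw g (hg.2 _ hR)).2 (hg.2 _ σ1),
      (sw g (hg.2 _ hR)).2 (hg.2 _ hT)⟩) (fun f hf => ?_)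
      (h6 F r s t a b c d (q 1) (dat [r, s, t] (by simp [r1, s1, t1]) l1)
        (aut_of ?_ fun k => ?_) (fun x => DFunLike.congr_fun (e1 _ (Γ.mul_mem s1 t1) _
          (Γ.mul_mem t1 s1) ?_ (by simp [t2, s2])) x) (fun x => DFunLike.congr_fun rt x) t2 ?_)
    · obtain ⟨g, rfl, k1⟩ := exists_c0 (h.par r1) r4 hf.1
      refine ⟨g, rfl, mem _ g.2 _ l1 ?_⟩
      simp only [List.mem_cons, List.not_mem_nil, or_false, forall_eq_or_imp, forall_eq]
      exact ⟨⟨_, hR, semi_st4 (π := rot3), k1⟩, ⟨σ, σ1, σ3, (tw g k1).1 hf.2.1⟩, _, hT,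
        semi_st4 (π := swap 1 2), (sw g k1).1 hf.2.2⟩
    · rw [pow_two]
      exact hf _ (Γ.mul_mem t1 t1) (by rw [pm _ t1 _ t1, t3, swap_mul_self]) (by simp [t2])
    · rw [k, h.pm.one] at t3
      exact absurd t3 (by decide)
    · rw [pm _ s1 _ t1, pm _ t1 _ s1, s3, mul_one, one_mul]
    · rw [h.eqv t t1, h.eqv r r1, r3, t3]
      rfl

end Vale.Agent.P011N.Cl
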