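import Vale.Agent.P011N.Cl.D4.Tor

/-!
The normal form of a datum of type `D₄`.
-/

namespace Vale.Agent.P011N.Cl

open Vale.Agent.P011.MPQ Vale.Agent.P011.D4 Vale.Agent.P011.D4.Oct Equiv Module

section ep

variable {F : Type} [Field F] [CharZero F] {a b c A B C : Fˣ} {d : F}

/-- The idempotent `(1 + i / d) / 2`. -/
def ep (d : F) : Oct a b c := ⟨⟨2⁻¹, (2 * d)⁻¹, 0, 0⟩, 0⟩

omit [CharZero F] in
theorem ne_of_sq (h : d ^ 2 = a) : d ≠ 0 := by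
  rintro rfl
  exact a.ne_zero (by rw [← h, zero_pow two_ne_zero])

theorem idm_ep (h : d ^ 2 = a) : Idm (ep d : Oct a b c) := by
  have h0 := ne_of_sq h
  constructor
  · simp only [ep, Oct.norm, nrd, ← h]
    simp
    field_simp
    ring
  · simp [ep, bil_eq]

omit [CharZero F] in
theorem star_ep : star (ep d : Oct a b c) = ep (-d) := by
  apply ext8 <;> simp [ep]

omit [CharZero F] in
theorem jO_ep {F' : Type} [Field F'] {a' b' c' : F'ˣ} {R : Type} [FunLike R F F']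
    [RingHomClass R F F'] (ι : R) : (jO ι (ep d : Oct a b c) : Oct a' b' c') = ep (ι d) := by
  apply ext8 <;> simp [ep, jO, jQ, map_ofNat]

theorem ep_sub (h : d ≠ 0) : d • ((ep d : Oct a b c) - star (ep d)) = gi := by
  apply ext8 <;> simp [ep, gi]
  field_simp
  norm_num

theorem emb_ep {f j l : Oct A B C} (hf : Idm f) (h : d ≠ 0) :
    Oct.emb (d • (f - star f)) j l (ep d : Oct a b c) = f := by
  simp only [Oct.emb, qemb, ep, hf.star_eq, smul_smul, QuaternionAlgebra.re_zero,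
    QuaternionAlgebra.imI_zero, QuaternionAlgebra.imJ_zero, QuaternionAlgebra.imK_zero, zero_smul,
    add_zero, zero_mul]
  rw [show (2 * d)⁻¹ * d = 2⁻¹ by field_simp]
  module

omit [CharZero F] in
theorem Idm.norm_sub {f : Oct A B C} (hf : Idm f) : norm (d • (f - star f)) = -d ^ 2 := by
  have h1 : d • (f - star f) = el f d (-d) := by rw [el, smul_sub, neg_smul, sub_eq_add_neg]
  rw [h1, hf.norm_el]
  ring

omit [CharZero F] in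
theorem bil_sub_star (f : Oct A B C) : bil (d • (f - star f)) 1 = 0 := by
  rw [bil_smul_left, bil_sub_left, bil_star_left, star_one, sub_self, mul_zero]

theorem Au.semi4 {γ : Gl F} {π : Perm (Fin 3)} {θ : V4 A B C → V4 A B C}
    {α : Oct A B C → Oct A B C} (h : Au γ π θ α) : Semi γ θ := by
  obtain ⟨l, -, h2⟩ := h.eq
  intro t x y
  funext j
  obtain ⟨i, rfl⟩ := π.surjective j
  rw [Pi.add_apply, Pi.smul_apply, h2, h2, h2, Pi.add_apply, Pi.smul_apply, h.semi, sg_add,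
    sg_smul, smul_add, smul_comm]

end ep

section nf

variable {F : Type} [Field F] [NumberField F] {a b c A B C : Fˣ} {Γ : Subgroup (Gl F)}
  {p : Gl F → Perm (Fin 3)} {d : F} {q : Fin 3 → F}

/-- The normal form, before the choice of a frame. -/
structure NF0 (Γ : Subgroup (Gl F)) (Φ : Subgroup (Perm (V4 A B C))) (p : Gl F → Perm (Fin 3))
    (d : F) (q : Fin 3 → F) (f : Oct A B C) (α : Gl F → Oct A B C → Oct A B C) : Prop where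
  dat : Dat4 Γ Φ
  pm : Pm Γ Φ p
  ne : d ≠ 0
  sgn : ∀ γ ∈ Γ, γ d = d ∨ γ d = -d
  prod : q 0 * q 1 * q 2 = 1
  eqv : ∀ γ ∈ Γ, ∀ i, γ (q i) = q (p γ i)
  idm : Idm f
  act : OAct Γ α
  fp : ∀ γ ∈ Γ, γ d = d → α γ f = f
  fm : ∀ γ ∈ Γ, γ d = -d → α γ f = star f
  st : ∀ γ ∈ Γ, γ d = d → ∃ φ ∈ Φ, Au γ (p γ) φ (α γ)
  tw : ∀ γ ∈ Γ, γ d = -d → ∃ φ ∈ Φ, ∃ θ, Au γ (p γ) θ (α γ) ∧ ∀ x, φ x = mp f q (θ x)

/-- The normal form. -/
structure NF (Γ : Subgroup (Gl F)) (Φ : Subgroup (Perm (V4 a b c))) (p : Gl F → Perm (Fin 3))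
    (d : F) (q : Fin 3 → F) : Prop where
  dat : Dat4 Γ Φ
  pm : Pm Γ Φ p
  fa : Fx Γ (a : F)
  fb : Fx Γ (b : F)
  fc : Fx Γ (c : F)
  sq : d ^ 2 = a
  prod : q 0 * q 1 * q 2 = 1
  eqv : ∀ γ ∈ Γ, ∀ i, γ (q i) = q (p γ i)
  st : ∀ γ ∈ Γ, γ d = d → stP γ (p γ) ∈ Φ
  tw : ∀ γ ∈ Γ, γ d = -d → ∃ φ ∈ Φ, ∀ x, φ x = mp (ep d) q (st4 γ (p γ) x)

theorem sgn_of_sq {t : F} (h : d ^ 2 = t) (ht : Fx Γ t) {γ : Gl F} (hγ : γ ∈ Γ) :
    γ d = d ∨ γ d = -d := sq_eq_sq_iff_eq_or_eq_neg.1 (by rw [← map_pow, h, ht γ hγ])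

theorem NF.par {Φ : Subgroup (Perm (V4 a b c))} (h : NF Γ Φ p d q) {γ : Gl F} (hγ : γ ∈ Γ) :
    Par γ a b c a b c := par_of_fx h.fa h.fb h.fc hγ

theorem NF.sgn {Φ : Subgroup (Perm (V4 a b c))} (h : NF Γ Φ p d q) {γ : Gl F} (hγ : γ ∈ Γ) :
    γ d = d ∨ γ d = -d := sgn_of_sq h.sq h.fa hγ

theorem NF.nf0 {Φ : Subgroup (Perm (V4 a b c))} (h : NF Γ Φ p d q) :
    NF0 Γ Φ p d q (ep d) fun γ => jO γ where
  dat := h.dat
  pm := h.pm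
  ne := ne_of_sq h.sq
  sgn _ := h.sgn
  prod := h.prod
  eqv := h.eqv
  idm := idm_ep h.sq
  act := oact_jO h.fa h.fb h.fc
  fp γ _ h1 := by rw [jO_ep, h1]
  fm γ _ h1 := by rw [jO_ep, h1, star_ep]
  st γ hγ h1 := ⟨_, h.st γ hγ h1, au_st4 (h.par hγ)⟩
  tw γ hγ h1 := by
    obtain ⟨φ, h2, h3⟩ := h.tw γ hγ h1
    exact ⟨φ, h2, _, au_st4 (h.par hγ), h3⟩

variable {Φ : Subgroup (Perm (V4 A B C))} {f : Oct A B C} {α : Gl F → Oct A B C → Oct A B C}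

theorem NF0.fix (h : NF0 Γ Φ p d q f α) : Fix Γ α (d • (f - star f)) := fun γ hγ => by
  have h1 := h.act.semi γ hγ
  rw [h1.smul, h1.sub, h.act.ostar hγ]
  rcases h.sgn γ hγ with h2 | h2
  · rw [h2, h.fp γ hγ h2]
  · rw [h2, h.fm γ hγ h2, star_star, neg_smul, ← smul_neg, neg_sub]

omit [NumberField F] in
theorem mem_tr_of {ψ : V4 a b c ≃ V4 A B C} {φ : Perm (V4 A B C)} (hφ : φ ∈ Φ)
    {g : Perm (V4 a b c)} (h : ∀ x, φ (ψ x) = ψ (g x)) : g ∈ tr ψ Φ := by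
  rw [mem_tr, show ψ.permCongr g = φ from Equiv.ext fun x => by
    rw [permCongr_apply, ← h, ψ.apply_symm_apply]]
  exact hφ

theorem NF0.frame (h : NF0 Γ Φ p d q f α) {j l : Oct A B C} (hj : Fix Γ α j) (hl : Fix Γ α l)
    (hb : Fx Γ (b : F)) (hc : Fx Γ (c : F)) (ht : Triple (d • (f - star f)) j l a b c) :
    ∃ ψ : V4 a b c ≃ V4 A B C, Sim4 id 1 1 1 ψ ∧ NF Γ (tr ψ Φ) p d q := by
  obtain ⟨ψ, s1, hψ⟩ := exists_emb4 ht
  have h1 : d ^ 2 = a := neg_injective (h.idm.norm_sub.symm.trans ht.norm_i)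
  have h2 := h.dat.tr s1
  refine ⟨ψ, s1, h2, h.pm.tr s1, fun γ hγ => ?_, hb, hc, h1, h.prod, h.eqv, fun γ hγ hd => ?_,
    fun γ hγ hd => ?_⟩
  · rw [← h1, map_pow]
    rcases h.sgn γ hγ with h3 | h3 <;> rw [h3]
    ring
  · obtain ⟨φ, k1, k2⟩ := h.st γ hγ hd
    obtain ⟨z, hz, k3⟩ := k2.frame h.act h.fix hj hl ht hψ hγ
    exact ((tr ψ Φ).mul_mem_cancel_left (h2.sat hz)).1 (mem_tr_of k1 k3)
  · obtain ⟨φ, k1, θ, k2, k4⟩ := h.tw γ hγ hd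
    obtain ⟨z, hz, k3⟩ := k2.frame h.act h.fix hj hl ht hψ hγ
    refine ⟨z⁻¹ * ψ.symm.permCongr φ, (tr ψ Φ).mul_mem ((tr ψ Φ).inv_mem (h2.sat hz))
      (symm_mem_tr.2 k1), fun x => ?_⟩
    rw [Perm.mul_apply, Perm.inv_eq_iff_eq, ← mp_Z4 hz, permCongr_apply, symm_symm,
      symm_apply_eq, k4, k3]
    funext i
    have k5 : ∀ s t, Oct.emb (d • (f - star f)) j l (el (ep d : Oct a b c) s t) = el f s t :=
      fun s t => by rw [el, el, emb_add, emb_smul, emb_smul, ht.emb_star, emb_ep h.idm h.ne]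
    rw [hψ, mp, mp, ht.emb_mul, ht.emb_mul, k5, k5, hψ]

theorem NF0.exists_nf (h : NF0 Γ Φ p d q f α) :
    ∃ (a b c : Fˣ) (ψ : V4 a b c ≃ V4 A B C), Sim4 id 1 1 1 ψ ∧ NF Γ (tr ψ Φ) p d q := by
  obtain ⟨b, c, j, l, h1, h2, h3, h4, h5⟩ := h.act.exists_trip
    (α := Units.mk0 _ (pow_ne_zero 2 h.ne)) h.fix (bil_sub_star f) h.idm.norm_sub
  exact ⟨_, b, c, h.frame h3 h4 h1 h2 h5⟩

/-- Change of the frame. -/
theorem NF.frame {Φ : Subgroup (Perm (V4 a b c))} (h : NF Γ Φ p d q) {j l : Oct a b c}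
    (hj : ∀ γ ∈ Γ, jO γ j = j) (hl : ∀ γ ∈ Γ, jO γ l = l) {b' c' : Fˣ} (hb : Fx Γ (b' : F))
    (hc : Fx Γ (c' : F)) (ht : Triple gi j l a b' c') :
    ∃ ψ : V4 a b' c' ≃ V4 a b c, Sim4 id 1 1 1 ψ ∧ NF Γ (tr ψ Φ) p d q :=
  h.nf0.frame hj hl hb hc (by rwa [ep_sub (ne_of_sq h.sq)])

end nf

end Vale.Agent.P011N.Cl
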