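import Vale.Agent.P011N.Cl.D4.Init

/-!
The existence of a normal form over an extension of the field.
-/

namespace Vale.Agent.P011N.Cl

open Vale.Agent.P011.MPQ Vale.Agent.P011.D4 Vale.Agent.P011.D4.Oct Equiv Module

variable {F : Type} [Field F] [NumberField F] {A B C : Fˣ} {Γ : Subgroup (Gl F)}
  {Φ : Subgroup (Perm (V4 A B C))} {p : Gl F → Perm (Fin 3)}

/-- The stabilizer of the first summand. -/
def Pm.sb (hp : Pm Γ Φ p) : Subgroup (Gl F) where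
  carrier := {γ | γ ∈ Γ ∧ p γ 0 = 0}
  mul_mem' := fun {γ δ} h1 h2 => ⟨Γ.mul_mem h1.1 h2.1, by
    rw [hp.mul γ h1.1 δ h2.1, Perm.mul_apply, h2.2, h1.2]⟩
  one_mem' := ⟨Γ.one_mem, by rw [hp.one]; rfl⟩
  inv_mem' := fun {γ} h1 => ⟨Γ.inv_mem h1.1, by
    rw [hp.inv h1.1, Perm.inv_eq_iff_eq, h1.2]⟩

theorem Pm.sb_le (hp : Pm Γ Φ p) : hp.sb ≤ Γ := fun _ h => h.1

theorem Pm.relIndex_sb (hp : Pm Γ Φ p) (htr : ∀ i j, ∃ γ ∈ Γ, p γ i = j) :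
    hp.sb.relIndex Γ = 3 := by
  letI : MulAction Γ (Fin 3) := MulAction.compHom _ hp.hom
  haveI : MulAction.IsPretransitive Γ (Fin 3) := ⟨fun i j => by
    obtain ⟨γ, h1, h2⟩ := htr i j
    exact ⟨⟨γ, h1⟩, h2⟩⟩
  have h1 : hp.sb.subgroupOf Γ = MulAction.stabilizer Γ (0 : Fin 3) :=
    Subgroup.ext fun γ => ⟨fun h => h.2, fun h => ⟨γ.2, h⟩⟩
  rw [Subgroup.relIndex, h1, MulAction.index_stabilizer_of_transitive, Nat.card_eq_fintype_card,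
    Fintype.card_fin]

theorem Sim4.exists_cp {γ : Gl F} {π : Perm (Fin 3)} {μ : Fin 3 → F} {ν : F}
    {φ : Perm (V4 A B C)} (h : Sim4 γ π μ ν φ) (i : Fin 3) :
    ∃ ψ : Perm (Oct A B C), ⇑ψ = cp φ π i :=
  ⟨Equiv.ofBijective _ ⟨fun u v huv => by
    by_contra h1
    exact h.cp_ne i (sub_ne_zero.2 h1) (by rw [(h.cp_semi i).sub, huv, sub_self]), h.cp_surj i⟩, rfl⟩

theorem Dat4.line4 (h : Dat4 Γ Φ) (hp : Pm Γ Φ p) (htr : ∀ j, ∃ γ ∈ Γ, p γ 0 = j)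
    {y : Oct A B C} (hy : y ≠ 0)
    (hl : ∀ φ ∈ Φ, ∀ γ : Gl F, Semi γ φ → p γ 0 = 0 → ∃ c : F, cp φ (p γ) 0 y = c • y) :
    Line4 Φ := by
  choose δ h1 h2 using htr
  choose φ h3 h4 using fun j => h.ov.onto _ (h1 j)
  choose μ ν s1 using fun j => hp.sim _ (h3 j) _ (h4 j)
  have h5 : ∀ j, φ j (Pi.single 0 y) = Pi.single j (cp (φ j) (p (δ j)) 0 y) := fun j => by
    rw [(s1 j).single, h2]
  refine (line4_iff h).2 ⟨fun j => cp (φ j) (p (δ j)) 0 y, fun j => (s1 j).cp_ne 0 hy,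
    fun ψ hψ j => ?_⟩
  obtain ⟨γ, k1, k2⟩ := h.ov.semi ψ hψ
  obtain ⟨_, _, s2⟩ := hp.sim ψ hψ γ k2
  obtain ⟨i, rfl⟩ := (p γ).surjective j
  have k3 := Φ.mul_mem (Φ.inv_mem (h3 (p γ i))) (Φ.mul_mem hψ (h3 i))
  have k4 := (h4 (p γ i)).inv.mul (k2.mul (h4 i))
  have k5 : p ((δ (p γ i))⁻¹ * (γ * δ i)) 0 = 0 := by
    rw [hp.mul _ (Γ.inv_mem (h1 _)) _ (Γ.mul_mem k1 (h1 i)), hp.mul _ k1 _ (h1 i), hp.inv (h1 _),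
      Perm.mul_apply, Perm.mul_apply, h2, Perm.inv_eq_iff_eq, h2]
  obtain ⟨c, hc⟩ := hl _ k3 _ k4 k5
  obtain ⟨_, _, s3⟩ := hp.sim _ k3 _ k4
  have k6 := s3.single 0 y
  rw [hc, k5, Perm.mul_apply, Perm.inv_eq_iff_eq, Pi.single_smul', (h4 _).smul, Perm.mul_apply, h5,
    h5] at k6
  exact ⟨_, by rw [s2.apply, cp, k6, Pi.smul_apply, Pi.single_eq_same]⟩

/-- The normal form of a trialitarian datum. -/
structure NFT {a b c : Fˣ} (Γ : Subgroup (Gl F)) (Φ : Subgroup (Perm (V4 a b c)))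
    (p : Gl F → Perm (Fin 3)) (d : F) (q : Fin 3 → F) : Prop extends NF Γ Φ p d q where
  trn : ∀ i j, ∃ γ ∈ Γ, p γ i = j
  sig : ∃ σ ∈ Γ, σ d = -d ∧ p σ = 1

theorem exists_nft (hK : K2Stmt) (hR : R1Stmt) {Φ : Subgroup (Perm (V4 (1 : Fˣ) 1 1))}
    (h : Dat4 Γ Φ) (hT : Trial Φ) :
    ∃ (F' : Type) (_ : Field F') (_ : NumberField F') (Γ' : Subgroup (Gl F')) (a b c : F'ˣ)
      (Φ' : Subgroup (Perm (V4 a b c))) (p : Gl F' → Perm (Fin 3)) (d : F') (q : Fin 3 → F'),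
      NFT Γ' Φ' p d q ∧ UIso (Pts (S4 1 1 1) Φ) (Pts (S4 a b c) Φ') := by
  obtain ⟨p, hp⟩ := h.exists_pm
  let Ψ : Subgroup (Perm (Oct (1 : Fˣ) 1 1)) :=
    { carrier := {ψ | ∃ φ ∈ Φ, ∃ γ ∈ hp.sb, Semi γ φ ∧ ∀ u, φ (Pi.single 0 u) = Pi.single 0 (ψ u)}
      mul_mem' := by
        rintro ψ ψ' ⟨φ, h1, γ, h2, h3, h4⟩ ⟨φ', k1, γ', k2, k3, k4⟩
        exact ⟨_, Φ.mul_mem h1 k1, _, hp.sb.mul_mem h2 k2, h3.mul k3, fun u => by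
          rw [Perm.mul_apply, k4, h4, Perm.mul_apply]⟩
      one_mem' := ⟨1, Φ.one_mem, 1, hp.sb.one_mem, semi_id, fun _ => rfl⟩
      inv_mem' := by
        rintro ψ ⟨φ, h1, γ, h2, h3, h4⟩
        exact ⟨_, Φ.inv_mem h1, _, hp.sb.inv_mem h2, h3.inv, fun u => by
          rw [Perm.inv_eq_iff_eq, h4]
          exact congrArg _ (ψ.apply_symm_apply u).symm⟩ }
  have h1 : ∀ φ ∈ Φ, ∀ γ ∈ hp.sb, Semi γ φ → ∃ ψ ∈ Ψ, ⇑ψ = cp φ (p γ) 0 := by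
    intro φ hφ γ hγ k1
    obtain ⟨_, _, s1⟩ := hp.sim φ hφ γ k1
    obtain ⟨ψ, hψ⟩ := s1.exists_cp 0
    exact ⟨ψ, ⟨φ, hφ, γ, hγ, k1, fun u => by rw [s1.single, hψ, hγ.2]⟩, hψ⟩
  have h2 : ∀ ψ ∈ Ψ, ∃ φ ∈ Φ, ∃ γ ∈ hp.sb, ∃ μ ν, Sim4 γ (p γ) μ ν φ ∧ ⇑ψ = cp φ (p γ) 0 := by
    rintro ψ ⟨φ, k1, γ, k2, k3, k4⟩
    obtain ⟨_, _, s1⟩ := hp.sim φ k1 γ k3
    exact ⟨φ, k1, γ, k2, _, _, s1, funext fun u => by rw [cp, k4, k2.2, Pi.single_eq_same]⟩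
  have htr := trans_of_trial hp ((trial_iff h hp).1 hT)
  obtain ⟨a, a1, a2, a3, a4⟩ := hK F Γ hp.sb hp.sb_le (hp.relIndex_sb htr).le _ Ψ
    ⟨fun ψ hψ => by
      obtain ⟨φ, -, γ, k2, _, _, s1, k3⟩ := h2 ψ hψ
      exact ⟨γ, k2, k3 ▸ s1.cp_semi 0⟩, fun γ hγ => by
      obtain ⟨φ, k1, k2⟩ := h.ov.onto γ hγ.1
      obtain ⟨_, _, s1⟩ := hp.sim φ k1 γ k2
      obtain ⟨ψ, k3, k4⟩ := h1 φ k1 γ hγ k2
      exact ⟨ψ, k3, k4 ▸ s1.cp_semi 0⟩⟩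
    (fun ψ hψ k0 => by
      obtain ⟨φ, k1, γ, k2, _, _, s1, k3⟩ := h2 ψ hψ
      have k4 : γ = 1 := Semi.unique (e := ψ) (k3 ▸ s1.cp_semi 0) (semi_one.2 k0)
      subst k4
      obtain ⟨l, hl⟩ := mem_Z4.1 (h.lin φ k1 s1.semi)
      exact ⟨l 0, fun x => by rw [k3, cp, hl, k2.2, Pi.single_eq_same]⟩)
    (bilL 1 1 1) (fun h0 => by
      have k1 : bil (1 : Oct (1 : Fˣ) 1 1) 1 = 0 := by rw [← bilL_apply, h0]; rfl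
      rw [bil_self, Oct.norm_one, mul_one] at k1
      exact two_ne_zero k1)
    fun ψ hψ γ _ k0 => by
      obtain ⟨φ, k1, δ, k2, _, _, s1, k3⟩ := h2 ψ hψ
      have k4 : γ = δ := Semi.unique (e := ψ) k0 (k3 ▸ s1.cp_semi 0)
      subst k4
      exact ⟨_, fun x y => by rw [bilL_apply, bilL_apply, k3, s1.cp_bil]⟩
  obtain ⟨F', _, _, ι, Γ', d, hE, hd⟩ := exists_sqrt Γ a
  obtain ⟨Φ', h', hL, -⟩ := h.exists_lift hE (par_one (ι := ι))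
  obtain ⟨p', hp'⟩ := h'.exists_pm
  have hpp : ∀ {γ γ'}, γ ∈ Γ → γ' ∈ Γ' → (∀ x, γ' (ι x) = ι (γ x)) → p' γ' = p γ :=
    hL.pm h par_one hp hp'
  obtain ⟨σ, σ1, σ2, σ3⟩ := hE.exists_neg a2 hd
  have σ4 : p' σ = 1 := (hpp Γ.one_mem σ1 σ2).trans hp.one
  have htr' := trans_of_trial hp' ((trial_iff h' hp').1 (hL.trial h h' hE par_one hT))
  have hd0 : d ≠ 0 := by
    rintro rfl
    rw [zero_pow two_ne_zero, eq_comm, map_eq_zero] at hd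
    exact a2 (hd ▸ IsSquare.zero)
  have hsg : ∀ γ ∈ Γ', γ d = d ∨ γ d = -d := fun γ hγ => sgn_of_sq hd (hE.fx a1) hγ
  have htd := trans_stb hp' hsg σ1 σ3 σ4 htr'
  obtain ⟨y, y0, hy⟩ := a4 F' ι _ _ (jO ι) (hE.sub hp.sb_le) (bc_jO ι (A' := 1) (B' := 1) (C' := 1))
    d hd
  have hr := h'.res (stb_le (d := d))
  obtain ⟨a', b', c', f1, f2, f3, ψ, ⟨_, _, s1⟩, hψ⟩ := hR F' _ _ hr
    (hr.line4 (hp'.res stb_le) (fun j => by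
      obtain ⟨γ, k1, k2, k3⟩ := htd 0 j
      exact ⟨γ, ⟨k1, k2⟩, k3⟩) y0 fun φ' hφ' γ' k1 k2 => by
      have k3 := hr.ov.mem hφ' k1
      obtain ⟨-, φ, k4, z, k5, k6⟩ := hL.down φ' hφ'.1
      have k7 := Semi.lin_comp (f := φ') (semi_Z4 ((Z4 1 1 1).inv_mem k5)) k1
      have k8 := Φ'.mul_mem (h'.sat ((Z4 1 1 1).inv_mem k5)) hφ'.1
      have k9 : ∀ x, (z⁻¹ * φ') (j4 ι x) = j4 ι (φ x) := fun x => by simp [k6]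
      obtain ⟨γ, k10, k11⟩ := h.ov.semi φ k4
      have k12 := (bc_j4 ι).over (bc_j4 ι) k11 k7 k9
      have k13 : γ ∈ hp.sb := ⟨k10, by rw [← hpp k10 k3.1 k12, k2]⟩
      obtain ⟨_, _, s2⟩ := hp'.sim _ k8 γ' k7
      obtain ⟨χ', hχ'⟩ := s2.exists_cp 0
      obtain ⟨χ, m1, m2⟩ := h1 φ k4 γ k13 k11
      obtain ⟨t, ht⟩ := hy χ' γ' ⟨k3.1, γ, k13, k12⟩ k3.2 (hχ' ▸ s2.cp_semi 0) ⟨χ, m1, fun x => by
        rw [hχ', m2, cp, cp, ← j4_single, k9, k2, k13.2, j4]⟩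
      obtain ⟨l, hl⟩ := mem_Z4.1 k5
      refine ⟨l 0 * t, ?_⟩
      rw [mul_smul, ← ht, hχ', cp, cp, k2, ← hl, ← Perm.mul_apply, mul_inv_cancel_left])
  obtain ⟨a'', b, c, ψ', q, ⟨_, _, s2⟩, hN⟩ := exists_nf_split (h'.tr s1) (hp'.tr s1) hd0 hsg htd
    f1 f2 f3 (fun w hw => by
      have k1 := a3 (w.comp ι) fun x hx => hw _ ((hE.fx hx).mono stb_le)
      have k2 := hw d fun γ hγ => hγ.2
      rw [RingHom.comp_apply, ← hd, map_pow, sq, Complex.mul_re, k2] at k1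
      nlinarith [mul_self_nonneg (w d).re])
    (fun γ k1 k2 => by
      obtain ⟨φ, k3, k4⟩ := hr.ov.onto γ ⟨k1, k2⟩
      obtain ⟨_, _, s3⟩ := hp'.sim φ k3.1 γ k4
      obtain ⟨z, hz, k5⟩ := hψ φ k3 γ ⟨k1, k2⟩ _ _ _ s3
      exact ((tr ψ Φ').mul_mem_cancel_left ((h'.tr s1).sat hz)).1 (mem_tr_of k3.1 k5)) σ1 σ3 σ4
  exact ⟨F', inferInstance, inferInstance, Γ', a'', b, c, _, p', d, q, ⟨hN, htr', σ, σ1, σ3, σ4⟩,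
    ((hL.uiso4 hE par_one h.ov).trans (uiso_tr4 s1 _).symm).trans (uiso_tr4 s2 _).symm⟩

end Vale.Agent.P011N.Cl
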