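import Vale.Agent.P011N.Cl.D4.Main
import Vale.Agent.P011N.Cl.N4.Main
import Vale.Agent.P011N.Cl.K.Fin
import Vale.Agent.P011N.Cl.R.Main

/-!
The anisotropic trialitarian forms of the spin group.
-/

namespace Vale.Agent.P011N.Cl

theorem simple_of_simp {G : Type} [Group G] (h : Simp G) : Simple G :=
  fun N hN h1 => (h N hN).resolve_left h1

/-- **The trialitarian forms.** -/
theorem top4 (h3 : ClD3 Simp) (h6 : ClD6 Simp) {F : Type} [Field F] [NumberField F]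
    {Φ : Subgroup (Equiv.Perm (Fin 3 → P011.H900.Oc (1 : F) 1))} (h : Form F (Spin F) Φ)
    (hT : Trial Φ) (hA : Ani (Pts (Spin F) Φ)) : Simple (Pts (Spin F) Φ) := by
  obtain ⟨Γ, Φ', h1, h2, h4⟩ := N4.n4Stmt F Φ h
  exact simple_of_simp (h4.simp (thm4 h3 h6 K.k2 R.r1Stmt F Γ Φ' h1 (h2 hT) (h4.ani hA)))

end Vale.Agent.P011N.Cl
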