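import Vale.Agent.P011N.Cl.T.Unit

/-!
The torus of an idempotent octonion.
-/

namespace Vale.Agent.P011N.Cl

open Vale.Agent.P011.MPQ Vale.Agent.P011.D4 Vale.Agent.P011.D4.Oct Equiv Module

variable {F : Type} [Field F] {A B C : Fˣ} {f : Oct A B C} {s t s' t' : F}

/-- A primitive idempotent. -/
def Idm (f : Oct A B C) : Prop := norm f = 0 ∧ bil f 1 = 1

/-- The element `s f + t f'`. -/
def el (f : Oct A B C) (s t : F) : Oct A B C := s • f + t • star f

theorem star_el : star (el f s t) = el f t s := by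
  rw [el, el, star_add, star_smul_oct, star_smul_oct, star_star, add_comm]

theorem el_star : el (star f) s t = el f t s := by rw [el, el, star_star, add_comm]

theorem smul_el (c : F) : c • el f s t = el f (c * s) (c * t) := by
  rw [el, el, smul_add, smul_smul, smul_smul]

namespace Idm

variable (h : Idm f)
include h

theorem ostar : Idm (star f) :=
  ⟨(Oct.norm_star f).trans h.1, by rw [bil_star_left, star_one, h.2]⟩

theorem star_eq : star f = 1 - f := by rw [Oct.star_eq, h.2, one_smul]

theorem mul_self : f * f = f := by rw [mul_self_eq, h.1, h.2, one_smul, zero_smul, sub_zero]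

theorem el_eq : el f s t = t • 1 + (s - t) • f := by
  rw [el, h.star_eq]
  module

theorem el_same : el f s s = s • 1 := by rw [h.el_eq, sub_self, zero_smul, add_zero]

theorem norm_el : norm (el f s t) = s * t := by
  rw [h.el_eq, norm_add, Oct.norm_smul, Oct.norm_smul, bil_smul_left, bil_smul_right, h.1,
    bil_comm, h.2, Oct.norm_one]
  ring

theorem el_el (x : Oct A B C) : el f s t * (el f s' t' * x) = el f (s * s') (t * t') * x := by
  have h1 : f * (f * x) = f * x := by rw [mul_mul_self, h.mul_self]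
  simp only [h.el_eq, add_mul, mul_add, smul_mul_assoc, mul_smul_comm, one_mul, h1]
  module

theorem el_el' (x : Oct A B C) : x * el f s t * el f s' t' = x * el f (s * s') (t * t') := by
  have h1 : x * f * f = x * f := by rw [mul_self_mul, h.mul_self]
  simp only [h.el_eq, add_mul, mul_add, smul_mul_assoc, mul_smul_comm, mul_one, h1]
  module

theorem el_mul_el : el f s t * el f s' t' = el f (s * s') (t * t') := by
  have h1 := h.el_el (s := s) (t := t) (s' := s') (t' := t') 1
  rwa [mul_one, mul_one] at h1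

theorem el_assoc (x : Oct A B C) : el f s t * x * el f s' t' = el f s t * (x * el f s' t') := by
  simp only [h.el_eq, add_mul, mul_add, smul_mul_assoc, mul_smul_comm, mul_one, one_mul, flex]

theorem el_four (u v u' v' : F) (x : Oct A B C) :
    el f s t * (el f s' t' * x * el f u' v') * el f u v =
      el f (s * s') (t * t') * x * el f (u' * u) (v' * v) := by
  rw [h.el_assoc (s := s'), h.el_el, ← h.el_assoc, h.el_el']

end Idm

/-- The element of the torus. -/
def mp (f : Oct A B C) (q : Fin 3 → F) (x : V4 A B C) : V4 A B C :=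
  fun i => el f (q (i + 1)) 1 * x i * el f 1 (q (i + 2))

variable {q : Fin 3 → F}

theorem mp_smul (l : Fin 3 → F) (x : V4 A B C) (i : Fin 3) :
    mp f q (fun j => l j • x j) i = l i • mp f q x i := by
  rw [mp, mp, mul_smul_comm, smul_mul_assoc]

theorem mp_Z4 {z : Perm (V4 A B C)} (hz : z ∈ Z4 A B C) (x : V4 A B C) :
    mp f q (z x) = z (mp f q x) := by
  obtain ⟨l, hl⟩ := mem_Z4.1 hz
  funext i
  rw [show z x = _ from funext (hl x), mp_smul, hl]

theorem ne_of_prod (hq : q 0 * q 1 * q 2 = 1) (i : Fin 3) : q i ≠ 0 := by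
  intro h0
  fin_cases i <;> simp_all

theorem Idm.mp_mp (h : Idm f) (x : V4 A B C) (i : Fin 3) :
    mp (star f) q (mp f q x) i = (q (i + 1) * q (i + 2)) • x i := by
  rw [mp, mp, el_star, el_star, h.el_four, one_mul, mul_one, one_mul, mul_one, h.el_same,
    h.el_same, smul_mul_assoc, mul_smul_comm, one_mul, mul_one, smul_smul, mul_comm]

theorem Idm.mp_one (h : Idm f) (i : Fin 3) :
    mp f q 1 i = el f (q (i + 1)) (q (i + 2)) := by
  rw [mp, Pi.one_apply, mul_one, h.el_mul_el, mul_one, one_mul]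

theorem Idm.mp_self (h : Idm f) (i : Fin 3) : mp f q (fun _ => f) i = q (i + 1) • f := by
  have h1 : f = el f 1 0 := by rw [el, one_smul, zero_smul, add_zero]
  rw [mp]
  nth_rewrite 2 [h1]
  rw [h.el_mul_el, h.el_mul_el, el]
  simp

theorem Idm.mp_star (h : Idm f) (i : Fin 3) :
    mp f q (fun _ => star f) i = q (i + 2) • star f := by
  have h1 : star f = el f 0 1 := by rw [el, one_smul, zero_smul, zero_add]
  rw [mp]
  nth_rewrite 1 [h1]
  rw [h.el_mul_el, h.el_mul_el, el]
  simp

variable [CharZero F]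

theorem Idm.exists_mp (h : Idm f) (hq : q 0 * q 1 * q 2 = 1) :
    ∃ M : Perm (V4 A B C), (∃ μ ν, Sim4 id 1 μ ν M) ∧ ∀ x, M x = mp f q x := by
  have h0 := ne_of_prod hq
  have ha : norm (el f 1 (q 0)) ≠ 0 := by rw [h.norm_el, one_mul]; exact h0 0
  have hb : norm (el f (q 2) 1) ≠ 0 := by rw [h.norm_el, mul_one]; exact h0 2
  have hl : ∀ i, ![q 1, 1, q 1] i ≠ 0 := fun i => by fin_cases i <;> simp [h0]
  refine ⟨zs _ hl * (tm 0 _ ha * tm 1 _ hb), sim4_lin_mul (sim4_Z4 (zs_mem _ hl))
    (sim4_lin_mul sim4_tm sim4_tm), fun x => funext fun i => ?_⟩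
  have h1 : q 1 * (q 0 * q 2) = 1 := by linear_combination hq
  rw [Perm.mul_apply, Perm.mul_apply, zs_apply, mp]
  rcases fin3_cases 0 i with rfl | rfl | rfl
  · have h2 : tm 1 _ hb x 0 = _ := tm_two (k := 1) x
    rw [tm_zero, h2, star_el, ← h.el_assoc, h.el_el, ← smul_mul_assoc, ← smul_mul_assoc, smul_el]
    simp [h1]
  · have h2 : tm 1 _ hb x (0 + 1) = _ := tm_zero (k := 1) x
    rw [tm_one, h2]
    simp
  · have h2 : tm 1 _ hb x (0 + 2) = _ := tm_one (k := 1) x
    rw [tm_two, h2, star_el, ← h.el_assoc, h.el_el', ← mul_smul_comm, smul_el]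
    simp [show q 1 * (q 2 * q 0) = 1 by linear_combination hq]

variable {γ : Gl F} {π : Perm (Fin 3)} {θ : V4 A B C → V4 A B C} {α : Oct A B C → Oct A B C}

theorem Au.idm (h : Au γ π θ α) (hf : Idm f) : Idm (α f) := by
  refine ⟨by rw [h.nrm, hf.1, map_zero], ?_⟩
  have h1 := congrArg α (add_star_self f)
  rw [h.semi.add, h.ostar, add_star_self, hf.2, one_smul, h.one] at h1
  exact smul_one_inj (h1.trans (one_smul _ _).symm)

theorem Au.map_el (h : Au γ π θ α) : α (el f s t) = el (α f) (γ s) (γ t) := by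
  rw [el, el, h.semi.add, h.semi.smul, h.semi.smul, h.ostar]

theorem Au.map_mp (h : Au γ π θ α) (hf : Idm f) (hq : ∀ i, γ (q i) = q (π i)) (x : V4 A B C) :
    θ (mp f q x) = mp (α f) q (θ x) := by
  obtain ⟨l, -, h2⟩ := h.eq
  funext j
  obtain ⟨i, rfl⟩ := π.surjective j
  rw [h2, mp, mp, h2, h.omul, h.omul, h.map_el, h.map_el, map_one, hq, hq, mul_smul_comm,
    smul_mul_assoc, sg, sg]
  split_ifs with hs
  · obtain ⟨s, hs⟩ := even_perm π hs
    rw [hs, hs, hs, add_right_comm i s, add_right_comm i s]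
  · obtain ⟨s, hs⟩ := odd_perm π hs
    have k11 : ∀ s i : Fin 3, s - i + 1 = s - (i + 2) ∧ s - i + 2 = s - (i + 1) := by decide
    rw [hs, hs, hs, (k11 s i).1, (k11 s i).2, star_mul, star_mul, star_el, star_el,
      (h.idm hf).el_assoc]

end Vale.Agent.P011N.Cl
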