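import Vale.Agent.P011N.Cl.D4.Hex

/-!
The related triples of a quaternion subalgebra.
-/

namespace Vale.Agent.P011N.Cl

open Vale.Agent.P011.MPQ Vale.Agent.P011.D4 Vale.Agent.P011.D4.Oct Equiv Module

section quat

variable {F : Type} [Field F] {a b c c' c'' : Fˣ}

theorem q_mul_star (x : Qt a b) : x * star x = nrd x • 1 := by
  ext <;> simp [nrd] <;> ring

theorem q_star_mul (x : Qt a b) : star x * x = nrd x • 1 := by
  ext <;> simp [nrd] <;> ring

theorem q_star_mul_mul (x y : Qt a b) : star x * (x * y) = nrd x • y := by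
  rw [← mul_assoc, q_star_mul, smul_mul_assoc, one_mul]

theorem q_mul_star_mul (x y : Qt a b) : x * (star x * y) = nrd x • y := by
  rw [← mul_assoc, q_mul_star, smul_mul_assoc, one_mul]

theorem q_nrd_star (x : Qt a b) : nrd (star x) = nrd x := by simp [nrd]

theorem q_nrd_smul (t : F) (x : Qt a b) : nrd (t • x) = t ^ 2 * nrd x := by
  simp only [nrd, QuaternionAlgebra.re_smul, QuaternionAlgebra.imI_smul,
    QuaternionAlgebra.imJ_smul, QuaternionAlgebra.imK_smul, smul_eq_mul]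
  ring

theorem q_star_smul (t : F) (x : Qt a b) : star (t • x) = t • star x := by
  ext <;> simp

theorem q_eq (x : Qt a b) : x = (2 * x.re) • 1 - star x := by
  ext <;> simp
  ring

theorem q_re_comm (x y : Qt a b) : (x * y).re = (y * x).re := by
  simp
  ring

theorem q_eq_zero {x : Qt a b} (h : ∀ w, (x * w).re = 0) : x = 0 := by
  have h1 := h 1
  have h2 := h ⟨0, 1, 0, 0⟩
  have h3 := h ⟨0, 0, 1, 0⟩
  have h4 := h ⟨0, 0, 0, 1⟩
  ext <;> simp_all

theorem q_rank [CharZero F] {x y : Qt a b} (h0 : x ≠ 0) (h1 : star x * y = 0)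
    (h2 : x * star y = 0) : ∃ t : F, y = t • x := by
  obtain ⟨w, hw⟩ := not_forall.1 fun h => h0 (q_eq_zero h)
  have h3 : x * w * y = (2 * (x * w).re) • y := by
    conv_lhs => rw [q_eq (x * w)]
    rw [sub_mul, star_mul, mul_assoc (star w), h1, mul_zero, sub_zero, smul_mul_assoc, one_mul]
  have h4 : x * (w * y) = (2 * (w * y).re) • x := by
    conv_lhs => rw [q_eq (w * y)]
    rw [mul_sub, star_mul, ← mul_assoc x, h2, zero_mul, sub_zero, mul_smul_comm, mul_one]
  have h5 := mul_ne_zero (two_ne_zero (α := F)) hw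
  exact ⟨_ * _, by rw [mul_smul, ← h4, ← mul_assoc, h3, inv_smul_smul₀ h5]⟩

theorem q_prime [CharZero F] {x y : Qt a b} (hx : x.re ≠ 0) (hy : y ≠ 0) : ∃ w, x * w * y ≠ 0 := by
  by_contra hcon
  push Not at hcon
  let i : Qt a b := ⟨0, 1, 0, 0⟩
  let j : Qt a b := ⟨0, 0, 1, 0⟩
  let k : Qt a b := ⟨0, 0, 0, 1⟩
  have h1 : ((a : F) * b) • x + (b : F) • (i * x * i) + (a : F) • (j * x * j) - k * x * k =
      (4 * a * b * x.re) • 1 := by
    ext <;> simp [i, j, k] <;> ring
  have h2 := congrArg (· * y) h1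
  have h3 := hcon 1
  rw [mul_one] at h3
  simp only [add_mul, sub_mul, smul_mul_assoc, mul_assoc _ x, mul_assoc _ (x * _), hcon, h3,
    mul_zero, smul_zero, add_zero, sub_zero, one_mul] at h2
  exact smul_ne_zero (by simp [hx]) hy h2.symm

/-- The related triple of three quaternions. -/
def zq (B : Fin 3 → Qt a b) (x : V4 a b c') : V4 a b c := fun i =>
  ⟨B (i + 1) * (x i).fst * star (B (i + 2)),
    (nrd (B (i + 1)) * nrd (B (i + 2))) • ((x i).snd * star (B i))⟩

variable {B B' : Fin 3 → Qt a b}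

theorem zq_zq (x : V4 a b c'') : (zq B (zq B' x : V4 a b c') : V4 a b c) = zq (B * B') x := by
  funext i
  ext1
  · simp only [zq, Pi.mul_apply, star_mul, mul_assoc]
  · simp only [zq, Pi.mul_apply, star_mul, mul_assoc, nrd_mul, smul_mul_assoc, smul_smul]
    congr 1
    ring

theorem zq_one (x : V4 a b c) : zq 1 x = x := by
  funext i
  ext1 <;> simp [zq, nrd_one]

theorem semi_zq : Semi (id : F → F) (zq B : V4 a b c' → V4 a b c) := fun t x y => by
  funext i
  ext1
  · simp only [zq, Pi.add_apply, Pi.smul_apply, fst_add, fst_smul, mul_add, add_mul,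
      smul_mul_assoc, mul_smul_comm, id]
  · simp only [zq, Pi.add_apply, Pi.smul_apply, snd_add, snd_smul, add_mul, smul_add,
      smul_mul_assoc, smul_comm t, id]

theorem zq_sc (l : Fin 3 → F) (x : V4 a b c') : (zq B (sc l x) : V4 a b c) = sc l (zq B x) := by
  funext i
  ext1
  · simp only [zq, sc, fst_smul, smul_mul_assoc, mul_smul_comm]
  · simp only [zq, sc, snd_smul, smul_mul_assoc, smul_comm (l i)]

theorem fin3_add : ∀ i : Fin 3,
    i + 1 + 1 = i + 2 ∧ i + 1 + 2 = i ∧ i + 2 + 1 = i ∧ i + 2 + 2 = i + 1 := by decide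

theorem nrd_prod (B : Fin 3 → Qt a b) (i : Fin 3) :
    nrd (B 0) * nrd (B 1) * nrd (B 2) = nrd (B i) * nrd (B (i + 1)) * nrd (B (i + 2)) := by
  fin_cases i
  · rfl
  · exact (mul_rotate _ _ _).trans rfl
  · exact (mul_rotate _ _ _).symm.trans rfl

theorem norm_zq (hc : (c' : F) = c * (nrd (B 0) * nrd (B 1) * nrd (B 2))) (x : V4 a b c')
    (i : Fin 3) : norm ((zq B x : V4 a b c) i) = nrd (B (i + 1)) * nrd (B (i + 2)) * norm (x i) := by
  simp only [zq, Oct.norm, nrd_mul, q_nrd_star, q_nrd_smul, hc, nrd_prod B i]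
  ring

theorem be_fst (x : V4 a b c) (i : Fin 3) : (be x i).fst =
    star (x (i + 2)).fst * star (x (i + 1)).fst +
      (c : F) • (star (x (i + 1)).snd * (x (i + 2)).snd) := by
  rw [be, fst_star, fst_mul, star_add, q_star_smul, star_mul, star_mul, star_star]

theorem be_snd (x : V4 a b c) (i : Fin 3) : (be x i).snd =
    -((x (i + 2)).snd * (x (i + 1)).fst + (x (i + 1)).snd * star (x (i + 2)).fst) := rfl

theorem be_zq (hc : (c' : F) = c * (nrd (B 0) * nrd (B 1) * nrd (B 2))) (x : V4 a b c')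
    (i : Fin 3) : be (zq B x : V4 a b c) i = nrd (B i) • (zq B (be x) : V4 a b c) i := by
  obtain ⟨h1, h2, h3, h4⟩ := fin3_add i
  ext1
  · simp only [fst_smul, zq, be_fst, h1, h2, h3, h4, star_mul, star_star,
      q_star_smul, mul_assoc, q_star_mul_mul, smul_mul_assoc, mul_smul_comm, smul_smul, mul_add,
      add_mul, smul_add, hc, nrd_prod B i]
    congr 2
    ring
  · simp only [snd_smul, zq, be_snd, h1, h2, h3, h4, star_mul, star_star,
      mul_assoc, q_star_mul_mul, smul_mul_assoc, mul_smul_comm, smul_smul, add_mul, smul_add,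
      neg_mul, smul_neg]
    congr 3 <;> ring

theorem sim4_of_be [CharZero F] {A B C A' B' C' : Fˣ} {φ : V4 A B C → V4 A' B' C'}
    (h1 : Semi (id : F → F) φ) {μ : Fin 3 → F} (h2 : ∀ x i, norm (φ x i) = μ i * norm (x i))
    (h3 : ∀ i, μ i ≠ 0) {t : F} (h4 : ∀ x, be (φ x) 0 = t • φ (be x) 0) (h5 : t ≠ 0) :
    Sim4 id 1 μ (t * μ 0) φ where
  semi := h1
  nrm := h2
  tri x := by
    rw [tau_eq _ 0, tau_eq _ 0, h4, bil_smul_left, bil, ← Pi.add_apply (φ _),
      ← (semi_one.2 h1).add, h2, h2, h2, bil, id, Pi.add_apply]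
    ring
  ne := h3
  ne' := mul_ne_zero h5 (h3 0)

theorem exists_zq [CharZero F] (hc : (c' : F) = c * (nrd (B 0) * nrd (B 1) * nrd (B 2))) :
    ∃ ψ : V4 a b c' ≃ V4 a b c, (∃ μ ν, Sim4 id 1 μ ν ψ) ∧ ∀ x, ψ x = zq B x := by
  have h0 : ∀ i, nrd (B i) ≠ 0 := fun i h0 => c'.ne_zero (by
    rw [hc, nrd_prod B i, h0, zero_mul, zero_mul, mul_zero])
  refine ⟨⟨zq B, zq fun i => (nrd (B i))⁻¹ • star (B i), fun x => ?_, fun x => ?_⟩,
    ⟨_, _, sim4_of_be semi_zq (norm_zq hc) (fun i => mul_ne_zero (h0 _) (h0 _))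
      (fun x => be_zq hc x 0) (h0 0)⟩, fun _ => rfl⟩
  · rw [zq_zq, show _ * B = 1 from funext fun i => by
      rw [Pi.mul_apply, smul_mul_assoc, q_star_mul, inv_smul_smul₀ (h0 i), Pi.one_apply], zq_one]
  · rw [zq_zq, show B * _ = 1 from funext fun i => by
      rw [Pi.mul_apply, mul_smul_comm, q_mul_star, inv_smul_smul₀ (h0 i), Pi.one_apply], zq_one]

theorem st4_zq [CharZero F] {γ : Gl F} {π : Perm (Fin 3)} (ha : γ a = a) (hb : γ b = b)
    (hB : ∀ i, jQ γ (B i) = B' (π i)) (x : V4 a b c') :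
    st4 γ π (zq B x : V4 a b c) = zq B' (st4 γ π x) := by
  funext j
  obtain ⟨i, rfl⟩ := π.surjective j
  rw [st4_apply, zq, zq, st4_apply, so4, so4]
  split_ifs with hs
  · obtain ⟨s, hs⟩ := even_perm π hs
    have h1 : ∀ m, π i + m = π (i + m) := fun m => by rw [hs, hs, add_right_comm]
    rw [h1, h1, ← hB, ← hB, ← hB]
    ext1
    · simp only [jO, jQ_mul ha hb, jQ_star]
    · simp only [jO, jQ_mul ha hb, jQ_star, jQ_smul, nrd_jQ ha hb, map_mul]
  · obtain ⟨s, hs⟩ := odd_perm π hs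
    have k11 : ∀ s i : Fin 3, s - i + 1 = s - (i + 2) ∧ s - i + 2 = s - (i + 1) := by decide
    rw [show π i + 1 = π (i + 2) by rw [hs, hs, (k11 s i).1],
      show π i + 2 = π (i + 1) by rw [hs, hs, (k11 s i).2], ← hB, ← hB, ← hB]
    ext1
    · simp only [jO, jQ_mul ha hb, jQ_star, fst_star, star_mul, star_star, mul_assoc]
    · simp only [jO, jQ_mul ha hb, jQ_star, jQ_smul, nrd_jQ ha hb, map_mul, snd_star, neg_mul,
        smul_neg, mul_comm (γ (nrd (B (i + 1))))]

/-- The quaternion `t e₊ + e₋`. -/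
def eq (d t : F) : Qt a b := ⟨(t + 1) / 2, (t - 1) / (2 * d), 0, 0⟩

variable [CharZero F] {d : F} {q : Fin 3 → F}

theorem el_ep (t : F) : el (ep d : Oct a b c) t 1 = ⟨eq d t, 0⟩ := by
  apply ext8 <;> simp [el, ep, eq] <;> ring

theorem nrd_eq (h : d ^ 2 = a) (t : F) : nrd (eq d t : Qt a b) = t := by
  have h0 := ne_of_sq h
  simp only [nrd, eq, ← h]
  field_simp
  ring

theorem eq_mul (h : d ^ 2 = a) (s t : F) : (eq d s : Qt a b) * eq d t = eq d (s * t) := by
  have h0 := ne_of_sq h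
  ext <;> simp [eq, ← h] <;> field_simp <;> ring

theorem eq_one : (eq d 1 : Qt a b) = 1 := by
  ext <;> simp [eq]

theorem mp_eq_zq (h : d ^ 2 = a) (hq : q 0 * q 1 * q 2 = 1) (x : V4 a b c) :
    mp (ep d) q x = zq (fun i => eq d (q i)) x := by
  funext i
  rw [mp, ← star_el (s := q (i + 2)), el_ep, el_ep, zq]
  ext1
  · simp
  · have h1 : q i * (q (i + 1) * q (i + 2)) = 1 := by
      have h2 := nrd_prod (fun i => (eq d (q i) : Qt a b)) i
      simp only [nrd_eq h, hq] at h2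
      rw [← mul_assoc, ← h2]
    have h2 := q_star_mul_mul (eq d (q i) : Qt a b) (eq d (q (i + 1) * q (i + 2)))
    rw [eq_mul h, h1, eq_one, mul_one, nrd_eq h] at h2
    simp only [snd_mul, fst_star, snd_star, neg_zero, zero_mul, zero_add, star_star, add_zero,
      fst_mul, nrd_eq h, h2, mul_smul_comm, smul_smul, mul_assoc, eq_mul h]
    rw [mul_comm (q (i + 2)), mul_left_comm, h1, one_smul]

end quat

end Vale.Agent.P011N.Cl
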